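import Vale.Agent.P241.H963.Adapt
import Mathlib.CategoryTheory.Preadditive.Biproducts

/-!
# P241, block YK: the adapted basis of a tower of cells
-/

open CategoryTheory MonoidalCategory MonObj Limits Pretriangulated
open Vale.Agent.P093.SymPow Vale.Agent.P251.M Vale.Agent.P093.Cox Vale.Agent.P241.H568
open Vale.Agent.P251.T Vale.Agent.P241.H169

set_option linter.unusedSectionVars false

universe v u

namespace Vale.Agent.P241.YK

/-- finite direct sums -/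
theorem exists_dec {C : Type u} [Category.{v} C] [Preadditive C] [HasFiniteBiproducts C]
    {ι : Type} [Fintype ι] (A : ι → C) : ∃ W : C, Nonempty (Dec A W) := by
  classical
  refine ⟨⨁ A, ⟨{
    inj := fun j => biproduct.ι A j
    prj := fun j => biproduct.π A j
    inj_prj := fun j => biproduct.ι_π_self A j
    inj_prj_ne := fun {j k} h => biproduct.ι_π_ne A h
    total := ?_ }⟩⟩
  exact biproduct.total

section adapt

variable {T : Type u} [Category.{v} T] [Preadditive T] [HasZeroObject T]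
    [HasShift T ℤ] [∀ n : ℤ, (shiftFunctor T n).Additive] [Pretriangulated T]
    [MonoidalCategory T] [SymmetricCategory T] [TensorTriangulated T]

variable {n : ℕ} {t : Tower T n} {K : T} [MonObj K] (hK : SphK K)
  (hgen : ∀ X : T, (∀ (n : ℤ) (f : (𝟙_ T)⟦n⟧ ⟶ X), f = 0) → IsZero X)

variable {W : T} (d : Dec (fun i : JI t K => (𝟙_ T)⟦i.e⟧) W)

/-- the adapted basis -/
noncomputable def xb : W ⟶ K ⊗ t.E 0 := d.desc fun i => i.z

theorem inj_xb (i : JI t K) : d.inj i ≫ xb d = i.z := d.inj_desc _ i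

theorem comp_lext_xb {B : T} (a : B ⟶ K ⊗ W) :
    a ≫ lext (xb d) = ∑ i, (a ≫ K ◁ d.prj i) ≫ lext i.z := by
  have h1 : a = a ≫ K ◁ 𝟙 W := by rw [MonoidalCategory.whiskerLeft_id, Category.comp_id]
  conv_lhs => rw [h1, ← d.total]
  rw [whiskerLeft_sum, Preadditive.comp_sum, Preadditive.sum_comp]
  refine Finset.sum_congr rfl fun i _ => ?_
  rw [MonoidalCategory.whiskerLeft_comp, ← inj_xb d i, lext_pre]
  simp only [Category.assoc]

theorem eq_zero_of_prj {B : T} (a : B ⟶ K ⊗ W) (h : ∀ i, a ≫ K ◁ d.prj i = 0) : a = 0 := by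
  have h1 : a = a ≫ K ◁ 𝟙 W := by rw [MonoidalCategory.whiskerLeft_id, Category.comp_id]
  rw [h1, ← d.total, whiskerLeft_sum, Preadditive.comp_sum]
  refine Finset.sum_eq_zero fun i _ => ?_
  rw [MonoidalCategory.whiskerLeft_comp, reassoc_of% (h i), zero_comp]

include hK hgen in
theorem isIso_lext_xb : IsIso (lext (xb d)) := by
  classical
  refine isIso_of_bijective_hom (fun n : ℤ => (𝟙_ T)⟦n⟧) ?_ hgen _ ?_ ?_
  · intro k k' hk
    exact ⟨((shiftFunctorAdd' T k 1 k' hk).app _).symm⟩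
  · intro k a ha
    rw [comp_lext_xb] at ha
    exact eq_zero_of_prj d a (coeff_eq_zero hK k _ ha)
  · intro k y
    obtain ⟨c, -, hc⟩ := exists_coeff (t := t) hK 0 k y
    refine ⟨∑ i, c i ≫ K ◁ d.inj i, ?_⟩
    have h1 : y ≫ K ◁ tj t 0 = y := by
      change y ≫ K ◁ 𝟙 _ = y
      rw [MonoidalCategory.whiskerLeft_id, Category.comp_id]
    rw [← h1, hc, Preadditive.sum_comp]
    refine Finset.sum_congr rfl fun i _ => ?_
    rw [Category.assoc, ← lext_pre, inj_xb]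

include hK hgen in
/-- every object with a tower has a basis -/
theorem exists_sphere_basis [HasFiniteBiproducts T] {m : ℕ} (t' : Tower T m) :
    ∃ (κ : Type) (_ : Fintype κ) (e : κ → ℤ) (W' : T) (_ : Dec (fun i => (𝟙_ T)⟦e i⟧) W')
      (x : W' ⟶ K ⊗ t'.E 0), IsIso (lext x) := by
  obtain ⟨W', ⟨d'⟩⟩ := exists_dec (fun i : JI t' K => (𝟙_ T)⟦i.e⟧)
  exact ⟨_, inferInstance, _, W', d', xb d', isIso_lext_xb hK hgen d'⟩

/-- the tower over a stage -/
theorem exists_tower_stage {m : ℕ} (t' : Tower T m) (r : ℕ) :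
    ∃ (k : ℕ) (s : Tower T k), s.E 0 = t'.E r := by
  obtain ⟨k, s, hs⟩ := (t'.tow r).exists_tower
  exact ⟨k, s, hs⟩

theorem lext_inv {A W P : T} (x : W ⟶ K ⊗ P) [IsIso (lext x)] (u : A ⟶ K ⊗ P) :
    lext u ≫ inv (lext x) = lext (u ≫ inv (lext x)) := by
  rw [IsIso.comp_inv_eq]
  have h : inv (lext x) = lext (un K P ≫ inv (lext x)) := by
    rw [← cancel_mono (lext x), IsIso.inv_hom_id, ← lext_lext, Category.assoc, IsIso.inv_hom_id,
      Category.comp_id]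
    exact (FM.bind_unit P).symm
  rw [h, lext_lext, ← h, Category.assoc, IsIso.inv_hom_id, Category.comp_id]

include hK hgen in
theorem low_xb [HasFiniteBiproducts T] (i : JI t K) (r : ℕ) (h : i.1.1 < r) :
    haveI := isIso_lext_xb hK hgen d
    K ◁ tj t r ≫ inv (lext (xb d)) ≫ K ◁ d.prj i = 0 := by
  have := isIso_lext_xb hK hgen d
  obtain ⟨k, s, hs⟩ := exists_tower_stage t r
  obtain ⟨κ, _, e, W', d', x, hx⟩ := exists_sphere_basis hK hgen s
  -- transport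
  obtain ⟨x', hx'⟩ : ∃ x' : W' ⟶ K ⊗ t.E r, IsIso (lext x') := by
    rw [← hs]
    exact ⟨x, hx⟩
  rw [← cancel_epi (lext x'), comp_zero, ← lext_comp_assoc, ← Category.assoc, lext_inv,
    ← lext_comp]
  have h1 : ((x' ≫ K ◁ tj t r) ≫ inv (lext (xb d))) ≫ K ◁ d.prj i = 0 := by
    refine d'.hom_ext fun l => ?_
    rw [comp_zero]
    obtain ⟨c, hc, h2⟩ := exists_coeff (t := t) hK r (e l) (d'.inj l ≫ x')
    have h3 : (d'.inj l ≫ x') ≫ K ◁ tj t r = (∑ i, c i ≫ K ◁ d.inj i) ≫ lext (xb d) := by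
      rw [h2, Preadditive.sum_comp]
      refine Finset.sum_congr rfl fun i _ => ?_
      rw [Category.assoc, ← lext_pre, inj_xb]
    rw [Category.assoc] at h3
    rw [← Category.assoc, ← Category.assoc, h3, Category.assoc, Category.assoc,
      IsIso.hom_inv_id_assoc, Preadditive.sum_comp]
    refine Finset.sum_eq_zero fun l' _ => ?_
    rw [Category.assoc, ← MonoidalCategory.whiskerLeft_comp]
    by_cases hl : l' = i
    · rw [hl, hc i h, zero_comp]
    · rw [d.inj_prj_ne hl, MonoidalPreadditive.whiskerLeft_zero, comp_zero]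
  rw [h1, lext_zero]

include hK in
/-- **The swap lemma.** -/
theorem swap_letters (a b : JI t K) :
    ∃ (D₁ : (𝟙_ T)⟦a.e⟧ ⊗ (𝟙_ T)⟦b.e⟧ ⟶ K ⊗ (t.E b.1.1 ⊗ t.E (a.1.1 + 1)))
      (D₂ : (𝟙_ T)⟦a.e⟧ ⊗ (𝟙_ T)⟦b.e⟧ ⟶ K ⊗ (t.E (b.1.1 + 1) ⊗ t.E a.1.1)),
      pr a.y b.y ≫ K ◁ (β_ (t.E a.1.1) (t.E b.1.1)).hom -
          (β_ ((𝟙_ T)⟦a.e⟧) ((𝟙_ T)⟦b.e⟧)).hom ≫ pr b.y a.y =
        D₁ ≫ K ◁ (t.E b.1.1 ◁ t.f a.1.1) + D₂ ≫ K ◁ (t.f b.1.1 ▷ t.E a.1.1) := by
  set w := pr a.y b.y ≫ K ◁ (β_ (t.E a.1.1) (t.E b.1.1)).hom -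
    (β_ ((𝟙_ T)⟦a.e⟧) ((𝟙_ T)⟦b.e⟧)).hom ≫ pr b.y a.y with hw
  -- it dies in the product of the cells
  have h1 : w ≫ K ◁ (t.g b.1.1 ⊗ₘ t.g a.1.1) = 0 := by
    rw [hw, Preadditive.sub_comp, Category.assoc, Category.assoc, ← pr_comp,
      ← MonoidalCategory.whiskerLeft_comp, ← BraidedCategory.braiding_naturality,
      MonoidalCategory.whiskerLeft_comp, ← pr_comp_assoc, hK.comm, sub_self]
  -- first step
  obtain ⟨w₁, hw₁⟩ := exact_left K ((𝟙_ T)⟦t.d b.1.1⟧) (t.dist _ a.1.2)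
    (w ≫ K ◁ (t.g b.1.1 ▷ t.E a.1.1)) (by
      rw [Category.assoc, ← MonoidalCategory.whiskerLeft_comp, ← tensorHom_def, h1])
  -- second step
  have h2 := hK.unit _ _ _ b.y_g
  let c := w₁ ≫ inv (lext (rst (b.y ≫ K ◁ t.g b.1.1) (t.E (a.1.1 + 1))))
  have h3 : c ≫ lext (rst b.y (t.E (a.1.1 + 1))) ≫ K ◁ (t.g b.1.1 ▷ t.E (a.1.1 + 1)) = w₁ := by
    rw [← lext_comp, ← rst_comp]
    change (w₁ ≫ inv _) ≫ _ = _
    rw [Category.assoc, IsIso.inv_hom_id, Category.comp_id]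
  have h4 : (w - (c ≫ lext (rst b.y (t.E (a.1.1 + 1)))) ≫ K ◁ (t.E b.1.1 ◁ t.f a.1.1)) ≫
      K ◁ (t.g b.1.1 ▷ t.E a.1.1) = 0 := by
    rw [Preadditive.sub_comp, hw₁, Category.assoc, ← MonoidalCategory.whiskerLeft_comp,
      whisker_exchange, MonoidalCategory.whiskerLeft_comp, ← Category.assoc,
      Category.assoc c, h3, sub_self]
  obtain ⟨w₂, hw₂⟩ := exact_right K (t.E a.1.1) (t.dist _ b.1.2) _ h4
  exact ⟨c ≫ lext (rst b.y (t.E (a.1.1 + 1))), w₂, by rw [← hw₂]; abel⟩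

/-- the letters over the tower -/
noncomputable def lettersOf (hK : SphK K) : Letters K (JI t K) (t.E 0) where
  E := t.E
  j := tj t
  f := t.f
  w _ := rfl
  A i := (𝟙_ T)⟦i.e⟧
  r i := i.1.1
  y i := i.y
  swap := swap_letters hK

include hgen in
theorem adapted [HasFiniteBiproducts T] : (lettersOf (t := t) hK).Adapted d (xb d) where
  iso := isIso_lext_xb hK hgen d
  inj_x i := inj_xb d i
  low i r h := low_xb hK hgen d i r h

end adapt

end Vale.Agent.P241.YK
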