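import Vale.Agent.P241.H963.Adapt
import Vale.Agent.P241.KR.Sphere

/-!
# P241, block YK: graded fields

`sphK_of_gfield` : an associative graded field `K` (`KR.GField`) satisfies `SphK K`.
-/

open CategoryTheory MonoidalCategory MonObj Limits Pretriangulated
open Vale.Agent.P093.SymPow Vale.Agent.P251.M Vale.Agent.P251.T

set_option linter.unusedSectionVars false

universe v u

namespace Vale.Agent.P241.YK

section twist

variable {C : Type u} [Category.{v} C] [MonoidalCategory C] [SymmetricCategory C]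
  {K : C} [MonObj K]

/-- the product of two classes which are twists of scalars -/
theorem pr_whiskerRight {M M' : C} (D D' : C) (g : M ⟶ K) (g' : M' ⟶ K) :
    pr (g ▷ D) (g' ▷ D') = tensorμ M D M' D' ≫ ((g ⊗ₘ g') ≫ μ[K]) ▷ (D ⊗ D') := by
  have h := tensorμ_natural g (𝟙 D) g' (𝟙 D')
  simp only [tensorHom_id] at h
  unfold pr FM.ten
  rw [reassoc_of% h, comp_whiskerRight, id_whiskerRight, tensorHom_id]

/-- the products of twists of commuting scalars commute -/
theorem pr_whiskerRight_comm {M M' : C} (D D' : C) (g : M ⟶ K) (g' : M' ⟶ K)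
    (h : (β_ M M').hom ≫ (g' ⊗ₘ g) ≫ μ[K] = (g ⊗ₘ g') ≫ μ[K]) :
    pr (g ▷ D) (g' ▷ D') ≫ K ◁ (β_ D D').hom =
      (β_ (M ⊗ D) (M' ⊗ D')).hom ≫ pr (g' ▷ D') (g ▷ D) := by
  rw [pr_whiskerRight, pr_whiskerRight, FM.braiding_tensorμ_assoc, ← h]
  simp only [Category.assoc, comp_whiskerRight, tensorHom_def]
  rw [← whisker_exchange, ← whisker_exchange_assoc, ← whisker_exchange_assoc]

/-- the same for classes which are equal to twists up to isomorphisms of the sources -/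
theorem pr_comm_of {M M' A A' : C} (D D' : C) (g : M ⟶ K) (g' : M' ⟶ K)
    (h : (β_ M M').hom ≫ (g' ⊗ₘ g) ≫ μ[K] = (g ⊗ₘ g') ≫ μ[K]) (a : A ⟶ M ⊗ D)
    (a' : A' ⟶ M' ⊗ D') :
    pr (a ≫ g ▷ D) (a' ≫ g' ▷ D') ≫ K ◁ (β_ D D').hom =
      (β_ A A').hom ≫ pr (a' ≫ g' ▷ D') (a ≫ g ▷ D) := by
  rw [pr_pre, pr_pre, Category.assoc, pr_whiskerRight_comm D D' g g' h,
    BraidedCategory.braiding_naturality_assoc]

end twist

section field

variable {T : Type u} [Category.{v} T] [Preadditive T] [HasZeroObject T]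
    [HasShift T ℤ] [∀ n : ℤ, (shiftFunctor T n).Additive] [Pretriangulated T]
    [MonoidalCategory T] [SymmetricCategory T] [TensorTriangulated T]
    {K : T} [MonObj K] {q : ℕ}

/-- A graded field has the properties `SphK`. -/
theorem sphK_of_gfield (h : KR.GField K q) : SphK K where
  unit k e c hc := by
    have h1 : (⟨c⟩ : KR.Sf K k ⟶ KR.Sf K e) ≠ 0 := fun h0 => hc (congrArg FM.Hom.hom h0)
    have := h.gf.iso k e ⟨c⟩ h1
    exact KR.isIso_bind (⟨c⟩ : KR.Sf K k ⟶ KR.Sf K e)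
  comm a b d d' x y := by
    obtain ⟨g, hg⟩ := KR.exists_tw (K := K) a d (a - d) (by ring) ⟨x⟩
    obtain ⟨g', hg'⟩ := KR.exists_tw (K := K) b d' (b - d') (by ring) ⟨y⟩
    have e1 : x = (KR.sh2 (a - d) d a (by ring)).inv ≫ g ▷ (𝟙_ T)⟦d⟧ := congrArg FM.Hom.hom hg
    have e2 : y = (KR.sh2 (b - d') d' b (by ring)).inv ≫ g' ▷ (𝟙_ T)⟦d'⟧ :=
      congrArg FM.Hom.hom hg'
    rw [e1, e2]
    exact pr_comm_of _ _ g g' (h.comm _ _ g g') _ _

end field

end Vale.Agent.P241.YK
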