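import Vale.Agent.P241.H963.Kun

/-!
# P241, block YK: the image filtration of the homology of a tensor power

For a tower `E 0 ← E 1 ← ⋯` over `P` (`j r : E r ⟶ P`, `f r : E (r + 1) ⟶ E r`),
`ImFil K j m n B` is the additive span of the maps
`B ⟶ K ⊗ (E s₁ ⊗ ⋯ ⊗ E sₘ) ⟶ K ⊗ tpow P m` with `n ≤ s₁ + ⋯ + sₘ`.
-/

open CategoryTheory MonoidalCategory MonObj
open Vale.Agent.P093.SymPow Vale.Agent.P251.M Vale.Agent.P093.Cox

set_option linter.unusedSectionVars false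

universe v u

namespace Vale.Agent.P241.YK

section fil

variable {C : Type u} [Category.{v} C] [MonoidalCategory C] [Preadditive C]
  [MonoidalPreadditive C] (K : C) {P : C} {E : ℕ → C} (j : ∀ r, E r ⟶ P)

/-- the image filtration -/
def ImFil (m n : ℕ) (B : C) : AddSubgroup (B ⟶ K ⊗ tpow P m) :=
  AddSubgroup.closure {z | ∃ (s : Fin m → ℕ) (z' : B ⟶ K ⊗ wob E m s),
    n ≤ ∑ i, s i ∧ z = z' ≫ K ◁ wto j m s}

variable {K}

theorem mem_ImFil {m n : ℕ} {B : C} (s : Fin m → ℕ) (z' : B ⟶ K ⊗ wob E m s)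
    (h : n ≤ ∑ i, s i) : z' ≫ K ◁ wto j m s ∈ ImFil K j m n B :=
  AddSubgroup.subset_closure ⟨s, z', h, rfl⟩

/-- to prove that an additive map sends the filtration to a subgroup -/
theorem ImFil_induction {m n : ℕ} {B : C} {G : Type*} [AddCommGroup G] (H : AddSubgroup G)
    (φ : (B ⟶ K ⊗ tpow P m) →+ G)
    (h : ∀ (s : Fin m → ℕ) (z' : B ⟶ K ⊗ wob E m s), n ≤ ∑ i, s i →
      φ (z' ≫ K ◁ wto j m s) ∈ H) {z : B ⟶ K ⊗ tpow P m} (hz : z ∈ ImFil K j m n B) :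
    φ z ∈ H := by
  have h1 : ImFil K j m n B ≤ H.comap φ := by
    refine (AddSubgroup.closure_le _).mpr ?_
    rintro z ⟨s, z', hs, rfl⟩
    exact h s z' hs
  exact h1 hz

theorem ImFil_mono {m n n' : ℕ} (h : n ≤ n') (B : C) : ImFil K j m n' B ≤ ImFil K j m n B := by
  refine (AddSubgroup.closure_le _).mpr ?_
  rintro z ⟨s, z', hs, rfl⟩
  exact mem_ImFil j s z' (h.trans hs)

/-- precomposition as an additive map -/
def preHom {A B : C} (a : A ⟶ B) (X : C) : (B ⟶ X) →+ (A ⟶ X) :=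
  AddMonoidHom.mk' (fun z => a ≫ z) fun x y => Preadditive.comp_add _ _ _ _ x y

/-- postcomposition as an additive map -/
def postHom (B : C) {X Y : C} (g : X ⟶ Y) : (B ⟶ X) →+ (B ⟶ Y) :=
  AddMonoidHom.mk' (fun z => z ≫ g) fun x y => Preadditive.add_comp _ _ _ x y _

theorem ImFil_pre {m n : ℕ} {A B : C} (a : A ⟶ B) {z : B ⟶ K ⊗ tpow P m}
    (hz : z ∈ ImFil K j m n B) : a ≫ z ∈ ImFil K j m n A := by
  refine ImFil_induction j (ImFil K j m n A) (preHom a _) (fun s z' hs => ?_) hz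
  change a ≫ z' ≫ K ◁ wto j m s ∈ _
  rw [← Category.assoc]
  exact mem_ImFil j s _ hs

variable [MonObj K]

theorem ImFil_lext {m n : ℕ} {A B : C} (a : B ⟶ K ⊗ A) {z : A ⟶ K ⊗ tpow P m}
    (hz : z ∈ ImFil K j m n A) : a ≫ lext z ∈ ImFil K j m n B := by
  refine ImFil_induction j (ImFil K j m n B)
    ((preHom a _).comp (AddMonoidHom.mk' (fun z : A ⟶ K ⊗ tpow P m => lext z) lext_add))
    (fun s z' hs => ?_) hz
  change a ≫ lext (z' ≫ K ◁ wto j m s) ∈ _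
  rw [lext_comp, ← Category.assoc]
  exact mem_ImFil j s _ hs

variable [SymmetricCategory C]

theorem ImFil_sw {m n : ℕ} {B : C} (i : Fin m) {z : B ⟶ K ⊗ tpow P (m + 1)}
    (hz : z ∈ ImFil K j (m + 1) n B) : z ≫ K ◁ sw P (m + 1) i ∈ ImFil K j (m + 1) n B := by
  refine ImFil_induction j (ImFil K j (m + 1) n B) (postHom B (K ◁ sw P (m + 1) i))
    (fun s z' hs => ?_) hz
  obtain ⟨γ, _, h⟩ := exists_wsw E m i s
  change (z' ≫ K ◁ wto j (m + 1) s) ≫ K ◁ sw P (m + 1) i ∈ _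
  rw [Category.assoc, ← MonoidalCategory.whiskerLeft_comp, h j,
    MonoidalCategory.whiskerLeft_comp, ← Category.assoc]
  refine mem_ImFil j _ _ ?_
  rw [show ∑ k, (s ∘ ⇑(adj i)) k = ∑ k, s k from Equiv.sum_comp (adj i) s]
  exact hs

theorem ImFil_perm {m n : ℕ} {B : C} (σ : Equiv.Perm (Fin m)) {z : B ⟶ K ⊗ tpow P m}
    (hz : z ∈ ImFil K j m n B) :
    z ≫ K ◁ (perm P m σ : tpow P m ⟶ tpow P m) ∈ ImFil K j m n B := by
  cases m with
  | zero =>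
    have h : (perm P 0 σ : tpow P 0 ⟶ tpow P 0) = 𝟙 _ := rfl
    rw [h, MonoidalCategory.whiskerLeft_id, Category.comp_id]
    exact hz
  | succ m =>
    induction σ using perm_induction with
    | h1 => rw [perm_one, MonoidalCategory.whiskerLeft_id, Category.comp_id]; exact hz
    | h i σ hσ =>
      rw [perm_adj_mul, MonoidalCategory.whiskerLeft_comp, ← Category.assoc]
      exact ImFil_sw j i hσ

/-- the product with a letter -/
theorem ImFil_pr {m n : ℕ} {A B : C} (r : ℕ) (x : A ⟶ K ⊗ E r) {z : B ⟶ K ⊗ tpow P m}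
    (hz : z ∈ ImFil K j m n B) : pr (x ≫ K ◁ j r) z ∈ ImFil K j (m + 1) (r + n) (A ⊗ B) := by
  refine ImFil_induction j (ImFil K j (m + 1) (r + n) (A ⊗ B))
    (AddMonoidHom.mk' (fun z : B ⟶ K ⊗ tpow P m => (pr (x ≫ K ◁ j r) z :
      A ⊗ B ⟶ K ⊗ tpow P (m + 1))) fun z z' => pr_add_right _ z z') (fun s z' hs => ?_) hz
  change pr (x ≫ K ◁ j r) (z' ≫ K ◁ wto j m s) ∈ _
  rw [pr_comp]
  have h := mem_ImFil (n := r + n) j (Fin.cons r s : Fin (m + 1) → ℕ)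
    (pr x z' : A ⊗ B ⟶ K ⊗ (E r ⊗ wob E m s)) (by
      rw [Fin.sum_univ_succ]
      simp only [Fin.cons_zero, Fin.cons_succ]
      omega)
  exact h

theorem ImFil_pr2 {m n : ℕ} {A B : C} (p q : ℕ) (D : A ⟶ K ⊗ (E p ⊗ E q))
    {z : B ⟶ K ⊗ tpow P m} (hz : z ∈ ImFil K j m n B) :
    (pr (D ≫ K ◁ (j p ⊗ₘ j q)) z ≫ K ◁ (α_ P P (tpow P m)).hom : A ⊗ B ⟶ K ⊗ tpow P (m + 2)) ∈
      ImFil K j (m + 2) (p + (q + n)) (A ⊗ B) := by
  refine ImFil_induction j (ImFil K j (m + 2) (p + (q + n)) (A ⊗ B))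
    (AddMonoidHom.mk' (fun z : B ⟶ K ⊗ tpow P m =>
      (pr (D ≫ K ◁ (j p ⊗ₘ j q)) z ≫ K ◁ (α_ P P (tpow P m)).hom :
        A ⊗ B ⟶ K ⊗ tpow P (m + 2))) fun z z' => ?_) (fun s z' hs => ?_) hz
  · change pr _ (z + z') ≫ K ◁ (α_ P P (tpow P m)).hom = _
    rw [pr_add_right, Preadditive.add_comp]
  · change pr (D ≫ K ◁ (j p ⊗ₘ j q)) (z' ≫ K ◁ wto j m s) ≫ K ◁ (α_ P P (tpow P m)).hom ∈ _
    rw [pr_comp, Category.assoc, ← MonoidalCategory.whiskerLeft_comp, associator_naturality,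
      MonoidalCategory.whiskerLeft_comp, ← Category.assoc]
    have h := mem_ImFil (n := p + (q + n)) j (Fin.cons p (Fin.cons q s : Fin (m + 1) → ℕ) :
      Fin (m + 2) → ℕ)
      (pr D z' ≫ K ◁ (α_ (E p) (E q) (wob E m s)).hom :
        A ⊗ B ⟶ K ⊗ (E p ⊗ (E q ⊗ wob E m s))) (by
        rw [Fin.sum_univ_succ, Fin.sum_univ_succ]
        simp only [Fin.cons_zero, Fin.cons_succ]
        omega)
    exact h

end fil

section B1

variable {C : Type u} [Category.{v} C] [MonoidalCategory C] [Preadditive C]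
  [MonoidalPreadditive C] [SymmetricCategory C] {K : C} [MonObj K]

/-- Letters over a tower. -/
structure Letters (K : C) [MonObj K] (ι : Type) (P : C) where
  /-- the stages -/
  E : ℕ → C
  /-- the maps to `P` -/
  j (r : ℕ) : E r ⟶ P
  /-- the maps of the tower -/
  f (r : ℕ) : E (r + 1) ⟶ E r
  w (r : ℕ) : f r ≫ j r = j (r + 1)
  /-- the sources of the letters -/
  A : ι → C
  /-- the stages of the letters -/
  r : ι → ℕ
  /-- the letters -/
  y (i : ι) : A i ⟶ K ⊗ E (r i)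
  /-- the swap lemma -/
  swap (a b : ι) : ∃ (D₁ : A a ⊗ A b ⟶ K ⊗ (E (r b) ⊗ E (r a + 1)))
    (D₂ : A a ⊗ A b ⟶ K ⊗ (E (r b + 1) ⊗ E (r a))),
    pr (y a) (y b) ≫ K ◁ (β_ (E (r a)) (E (r b))).hom - (β_ (A a) (A b)).hom ≫ pr (y b) (y a) =
      D₁ ≫ K ◁ (E (r b) ◁ f (r a)) + D₂ ≫ K ◁ (f (r b) ▷ E (r a))

variable {ι : Type} {P : C} (L : Letters K ι P)

/-- the letter in the homology of `P` -/
def Letters.z (i : ι) : L.A i ⟶ K ⊗ P := L.y i ≫ K ◁ L.j (L.r i)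

theorem Letters.swap_z (a b : ι) :
    ∃ (D₁ : L.A a ⊗ L.A b ⟶ K ⊗ (L.E (L.r b) ⊗ L.E (L.r a + 1)))
      (D₂ : L.A a ⊗ L.A b ⟶ K ⊗ (L.E (L.r b + 1) ⊗ L.E (L.r a))),
      pr (L.z a) (L.z b) ≫ K ◁ (β_ P P).hom - (β_ (L.A a) (L.A b)).hom ≫ pr (L.z b) (L.z a) =
        D₁ ≫ K ◁ (L.j (L.r b) ⊗ₘ L.j (L.r a + 1)) + D₂ ≫ K ◁ (L.j (L.r b + 1) ⊗ₘ L.j (L.r a)) := by
  obtain ⟨D₁, D₂, h⟩ := L.swap a b
  refine ⟨D₁, D₂, ?_⟩
  have h1 := congrArg (· ≫ K ◁ (L.j (L.r b) ⊗ₘ L.j (L.r a))) h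
  simp only [Preadditive.sub_comp, Preadditive.add_comp, Category.assoc,
    ← MonoidalCategory.whiskerLeft_comp] at h1
  rw [← BraidedCategory.braiding_naturality, MonoidalCategory.whiskerLeft_comp,
    ← pr_comp, whiskerLeft_comp_tensorHom, whiskerRight_comp_tensorHom, L.w, L.w, ← pr_comp_assoc] at h1
  exact h1

theorem Letters.swap2 (a b : ι) {m n : ℕ} {B : C} {z : B ⟶ K ⊗ tpow P m}
    (hz : z ∈ ImFil K L.j m n B) :
    (pr (L.z a) (pr (L.z b) z) ≫ K ◁ sw2 P P (tpow P m) -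
      sw2 (L.A a) (L.A b) B ≫ pr (L.z b) (pr (L.z a) z) :
        L.A a ⊗ (L.A b ⊗ B) ⟶ K ⊗ tpow P (m + 2)) ∈
      ImFil K L.j (m + 2) (L.r a + (L.r b + n) + 1) (L.A a ⊗ (L.A b ⊗ B)) := by
  obtain ⟨D₁, D₂, h⟩ := L.swap_z a b
  have e1 : pr (L.z a) (pr (L.z b) z) ≫ K ◁ sw2 P P (tpow P m) =
      (α_ (L.A a) (L.A b) B).inv ≫ pr (pr (L.z a) (L.z b) ≫ K ◁ (β_ P P).hom) z ≫
        K ◁ (α_ P P (tpow P m)).hom := by
    unfold sw2
    simp only [MonoidalCategory.whiskerLeft_comp]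
    have h1 := pr_assoc (L.z a) (L.z b) z
    rw [← Iso.inv_comp_eq] at h1
    rw [← h1, pr_comp_left]
    simp only [Category.assoc, ← MonoidalCategory.whiskerLeft_comp_assoc]
    simp
  have e2 : sw2 (L.A a) (L.A b) B ≫ pr (L.z b) (pr (L.z a) z) =
      (α_ (L.A a) (L.A b) B).inv ≫ pr ((β_ (L.A a) (L.A b)).hom ≫ pr (L.z b) (L.z a)) z ≫
        K ◁ (α_ P P (tpow P m)).hom := by
    unfold sw2
    have h1 := pr_pre (β_ (L.A a) (L.A b)).hom (𝟙 B) (pr (L.z b) (L.z a)) z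
    rw [Category.id_comp, tensorHom_id] at h1
    rw [h1]
    simp only [Category.assoc]
    rw [pr_assoc]
  have e3 : pr (L.z a) (pr (L.z b) z) ≫ K ◁ sw2 P P (tpow P m) -
      sw2 (L.A a) (L.A b) B ≫ pr (L.z b) (pr (L.z a) z) =
      (α_ (L.A a) (L.A b) B).inv ≫
        (pr (D₁ ≫ K ◁ (L.j (L.r b) ⊗ₘ L.j (L.r a + 1))) z ≫ K ◁ (α_ P P (tpow P m)).hom +
          pr (D₂ ≫ K ◁ (L.j (L.r b + 1) ⊗ₘ L.j (L.r a))) z ≫ K ◁ (α_ P P (tpow P m)).hom) := by
    rw [e1, e2, ← Preadditive.comp_sub, ← Preadditive.sub_comp, ← pr_sub_left, h, pr_add_left,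
      Preadditive.add_comp]
  refine e3 ▸ ?_
  refine ImFil_pre L.j _ (AddSubgroup.add_mem _ ?_ ?_)
  · exact ImFil_mono L.j (by omega) _ (ImFil_pr2 L.j (L.r b) (L.r a + 1) D₁ hz)
  · exact ImFil_mono L.j (by omega) _ (ImFil_pr2 L.j (L.r b + 1) (L.r a) D₂ hz)

variable {W : C} (inc : ∀ i, L.A i ⟶ W) (x : W ⟶ K ⊗ P) (hx : ∀ i, inc i ≫ x = L.z i)

include hx in
theorem Letters.word_mem (m : ℕ) (u : Fin m → ι) :
    wto inc m u ≫ pw x m ∈ ImFil K L.j m (∑ k, L.r (u k)) (wob L.A m u) := by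
  induction m with
  | zero =>
    have h := mem_ImFil (n := ∑ k, L.r (u k)) L.j (Fin.elim0 : Fin 0 → ℕ)
      (un K (𝟙_ C) : wob L.A 0 u ⟶ K ⊗ 𝟙_ C) (by simp)
    change 𝟙 _ ≫ un K _ ∈ _
    rw [Category.id_comp]
    change un K _ ≫ K ◁ 𝟙 _ ∈ _ at h
    rw [MonoidalCategory.whiskerLeft_id, Category.comp_id] at h
    exact h
  | succ m ih =>
    rw [wto_succ, pw_succ, ← pr_pre, hx, Fin.sum_univ_succ]
    exact ImFil_pr L.j (L.r (u 0)) (L.y (u 0)) (ih _)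

include hx in
/-- **(B1), adjacent transpositions.** -/
theorem Letters.adj_mem (m : ℕ) (i : Fin m) (u : Fin (m + 1) → ι) :
    wto inc (m + 1) u ≫ (pw x (m + 1) ≫ K ◁ sw P (m + 1) i - sw W (m + 1) i ≫ pw x (m + 1)) ∈
      ImFil K L.j (m + 1) (∑ k, L.r (u k) + 1) (wob L.A (m + 1) u) := by
  induction m with
  | zero => exact i.elim0
  | succ m ih =>
    refine Fin.cases ?_ (fun i => ?_) i
    · have hz := L.word_mem inc x hx m (Fin.tail (Fin.tail u))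
      have h := L.swap2 (u 0) (u 1) hz
      have e : wto inc (m + 2) u ≫ (pw x (m + 2) ≫ K ◁ sw2 P P (tpow P m) -
          sw2 W W (tpow W m) ≫ pw x (m + 2)) =
          pr (L.z (u 0)) (pr (L.z (u 1)) (wto inc m (Fin.tail (Fin.tail u)) ≫ pw x m)) ≫
            K ◁ sw2 P P (tpow P m) -
          sw2 (L.A (u 0)) (L.A (u 1)) (wob L.A m (Fin.tail (Fin.tail u))) ≫
            pr (L.z (u 1)) (pr (L.z (u 0)) (wto inc m (Fin.tail (Fin.tail u)) ≫ pw x m)) := by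
        rw [Preadditive.comp_sub]
        congr 1
        · rw [← Category.assoc]
          congr 1
          change (inc (u 0) ⊗ₘ (inc (u 1) ⊗ₘ wto inc m _)) ≫ pr x (pr x (pw x m)) = _
          rw [← pr_pre, ← pr_pre, hx, hx]
        · have h1 := sw2_naturality (inc (u 0)) (inc (u 1)) (wto inc m (Fin.tail (Fin.tail u)))
          change (inc (u 0) ⊗ₘ (inc (u 1) ⊗ₘ wto inc m _)) ≫ sw2 W W (tpow W m) ≫
            pr x (pr x (pw x m)) = _
          rw [reassoc_of% h1, ← pr_pre, ← pr_pre, hx, hx]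
      rw [Fin.sum_univ_succ, Fin.sum_univ_succ]
      exact e ▸ h
    · have h := ih i (Fin.tail u)
      have e : wto inc (m + 2) u ≫ (pw x (m + 2) ≫ K ◁ (P ◁ sw P (m + 1) i) -
          (W ◁ sw W (m + 1) i) ≫ pw x (m + 2)) =
          pr (L.z (u 0)) (wto inc (m + 1) (Fin.tail u) ≫
            (pw x (m + 1) ≫ K ◁ sw P (m + 1) i - sw W (m + 1) i ≫ pw x (m + 1))) := by
        rw [Preadditive.comp_sub, Preadditive.comp_sub, pr_sub_right]
        congr 1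
        · rw [← Category.assoc, ← Category.assoc, pr_comp_right]
          congr 1
          change (inc (u 0) ⊗ₘ wto inc (m + 1) _) ≫ pr x (pw x (m + 1)) = _
          rw [← pr_pre, hx]
        · change (inc (u 0) ⊗ₘ wto inc (m + 1) _) ≫ (W ◁ sw W (m + 1) i) ≫
            pr x (pw x (m + 1)) = _
          rw [← id_tensorHom, tensorHom_comp_tensorHom_assoc, Category.comp_id, ← pr_pre, hx,
            Category.assoc]
      have h2 := ImFil_pr L.j (L.r (u 0)) (L.y (u 0)) h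
      have e4 : ∑ k, L.r (u k) + 1 = L.r (u 0) + (∑ k : Fin (m + 1), L.r (u k.succ) + 1) := by
        rw [Fin.sum_univ_succ]
        omega
      rw [e4]
      exact e ▸ h2

/-- the words of letters, moved by a permutation -/
theorem exists_wperm {A : ι → C} (m : ℕ) (σ : Equiv.Perm (Fin m)) (u : Fin m → ι) :
    ∃ γ : wob A m u ⟶ wob A m (u ∘ ⇑(σ⁻¹)), IsIso γ ∧
      ∀ {W : C} (f : ∀ i, A i ⟶ W),
        wto f m u ≫ (perm W m σ : tpow W m ⟶ tpow W m) = γ ≫ wto f m (u ∘ ⇑(σ⁻¹)) := by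
  cases m with
  | zero =>
    refine ⟨𝟙 (𝟙_ C), inferInstance, fun {W} f => ?_⟩
    change 𝟙 (𝟙_ C) ≫ 𝟙 _ = 𝟙 _ ≫ 𝟙 _
    rfl
  | succ m =>
    induction σ using perm_induction with
    | h1 =>
      refine ⟨𝟙 (wob A (m + 1) u), IsIso.id (wob A (m + 1) u), fun {W} f => ?_⟩
      rw [perm_one, Category.comp_id]
      exact (Category.id_comp _).symm
    | h i σ hσ =>
      obtain ⟨γ, hγ, h⟩ := hσ
      obtain ⟨γ', hγ', h'⟩ := exists_wsw A m i (u ∘ ⇑(σ⁻¹))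
      have e : u ∘ ⇑((adj i * σ)⁻¹) = (u ∘ ⇑(σ⁻¹)) ∘ ⇑(adj i) := by
        rw [mul_inv_rev]
        have h2 : (adj i)⁻¹ = adj i := by
          unfold adj
          exact Equiv.swap_inv _ _
        rw [h2]
        rfl
      rw [e]
      refine ⟨γ ≫ γ', inferInstance, fun {W} f => ?_⟩
      rw [perm_adj_mul, ← Category.assoc, h f, Category.assoc, h' f, Category.assoc]

include hx in
/-- **(B1).** -/
theorem Letters.perm_mem (m : ℕ) (σ : Equiv.Perm (Fin m)) (u : Fin m → ι) :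
    wto inc m u ≫ (pw x m ≫ K ◁ (perm P m σ : tpow P m ⟶ tpow P m) -
      (perm W m σ : tpow W m ⟶ tpow W m) ≫ pw x m) ∈
      ImFil K L.j m (∑ k, L.r (u k) + 1) (wob L.A m u) := by
  cases m with
  | zero =>
    have h1 : (perm P 0 σ : tpow P 0 ⟶ tpow P 0) = 𝟙 _ := rfl
    have h2 : (perm W 0 σ : tpow W 0 ⟶ tpow W 0) = 𝟙 _ := rfl
    rw [h1, h2, MonoidalCategory.whiskerLeft_id, Category.comp_id, Category.id_comp, sub_self,
      Limits.comp_zero]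
    exact AddSubgroup.zero_mem _
  | succ m =>
    induction σ using perm_induction with
    | h1 =>
      rw [perm_one, perm_one, MonoidalCategory.whiskerLeft_id, Category.comp_id, Category.id_comp,
        sub_self, Limits.comp_zero]
      exact AddSubgroup.zero_mem _
    | h i σ hσ =>
      obtain ⟨γ, hγ, h⟩ := exists_wperm (A := L.A) (m + 1) σ u
      have e : wto inc (m + 1) u ≫ (pw x (m + 1) ≫
          K ◁ (perm P (m + 1) (adj i * σ) : tpow P (m + 1) ⟶ tpow P (m + 1)) -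
          (perm W (m + 1) (adj i * σ) : tpow W (m + 1) ⟶ tpow W (m + 1)) ≫ pw x (m + 1)) =
          (wto inc (m + 1) u ≫ (pw x (m + 1) ≫
            K ◁ (perm P (m + 1) σ : tpow P (m + 1) ⟶ tpow P (m + 1)) -
            (perm W (m + 1) σ : tpow W (m + 1) ⟶ tpow W (m + 1)) ≫ pw x (m + 1))) ≫
              K ◁ sw P (m + 1) i +
          γ ≫ wto inc (m + 1) (u ∘ ⇑(σ⁻¹)) ≫ (pw x (m + 1) ≫ K ◁ sw P (m + 1) i -
            sw W (m + 1) i ≫ pw x (m + 1)) := by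
        rw [perm_adj_mul, perm_adj_mul, MonoidalCategory.whiskerLeft_comp]
        simp only [Preadditive.comp_sub, Preadditive.sub_comp, Category.assoc]
        rw [reassoc_of% (h inc), reassoc_of% (h inc)]
        abel
      rw [e]
      refine AddSubgroup.add_mem _ (ImFil_sw L.j i hσ) (ImFil_pre L.j γ ?_)
      have h3 := L.adj_mem inc x hx m i (u ∘ ⇑(σ⁻¹))
      have e2 : ∑ k, L.r ((u ∘ ⇑(σ⁻¹)) k) = ∑ k, L.r (u k) :=
        Equiv.sum_comp (σ⁻¹) (fun k => L.r (u k))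
      rw [e2] at h3
      exact h3

end B1

end Vale.Agent.P241.YK
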