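import Vale.Agent.P241.H963.B2
import Vale.Agent.P241.H169.Tow
import Vale.Agent.P251.M.BUPi

/-!
# P241, block YK: adapted bases and the swap lemma

`SphK K` : every non-zero class `c : 𝟙⟦k⟧ ⟶ K ⊗ 𝟙⟦e⟧` generates `K ⊗ 𝟙⟦e⟧`, and the external
products of such classes are commutative. For a tower of cells over `P` there are letters over the
tower which are an adapted basis of the `K`-homology of `P` (`exists_adapted`).
-/

open CategoryTheory MonoidalCategory MonObj Limits Pretriangulated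
open Vale.Agent.P093.SymPow Vale.Agent.P251.M Vale.Agent.P093.Cox Vale.Agent.P241.H568
open Vale.Agent.P251.T Vale.Agent.P241.H169

set_option linter.unusedSectionVars false

universe v u

namespace Vale.Agent.P241.YK

section exact

variable {T : Type u} [Category.{v} T] [Preadditive T] [HasZeroObject T]
    [HasShift T ℤ] [∀ n : ℤ, (shiftFunctor T n).Additive] [Pretriangulated T]
    [MonoidalCategory T] [SymmetricCategory T] [TensorTriangulated T]

theorem exact_left (K X : T) {E E' Q : T} {f : E' ⟶ E} {g : E ⟶ Q} {h : Q ⟶ E'⟦(1 : ℤ)⟧}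
    (D : Triangle.mk f g h ∈ distTriang T) {A : T} (y : A ⟶ K ⊗ (X ⊗ E))
    (hy : y ≫ K ◁ (X ◁ g) = 0) : ∃ y' : A ⟶ K ⊗ (X ⊗ E'), y = y' ≫ K ◁ (X ◁ f) := by
  have h1 := TensorTriangulated.distinguished K _ (TensorTriangulated.distinguished X _ D)
  exact Triangle.coyoneda_exact₂ _ h1 y hy

theorem exact_left' (K : T) {E E' Q : T} {f : E' ⟶ E} {g : E ⟶ Q} {h : Q ⟶ E'⟦(1 : ℤ)⟧}
    (D : Triangle.mk f g h ∈ distTriang T) {A : T} (y : A ⟶ K ⊗ E)
    (hy : y ≫ K ◁ g = 0) : ∃ y' : A ⟶ K ⊗ E', y = y' ≫ K ◁ f := by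
  have h1 := TensorTriangulated.distinguished K _ D
  exact Triangle.coyoneda_exact₂ _ h1 y hy

theorem exact_right (K X : T) {E E' Q : T} {f : E' ⟶ E} {g : E ⟶ Q} {h : Q ⟶ E'⟦(1 : ℤ)⟧}
    (D : Triangle.mk f g h ∈ distTriang T) {A : T} (y : A ⟶ K ⊗ (E ⊗ X))
    (hy : y ≫ K ◁ (g ▷ X) = 0) : ∃ y' : A ⟶ K ⊗ (E' ⊗ X), y = y' ≫ K ◁ (f ▷ X) := by
  obtain ⟨y', h1⟩ := exact_left K X D (y ≫ K ◁ (β_ E X).hom) (by
    rw [Category.assoc, ← MonoidalCategory.whiskerLeft_comp,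
      ← BraidedCategory.braiding_naturality_left, MonoidalCategory.whiskerLeft_comp,
      reassoc_of% hy, zero_comp])
  refine ⟨y' ≫ K ◁ (β_ E' X).inv, ?_⟩
  have h2 := congrArg (· ≫ K ◁ (β_ E X).inv) h1
  simp only [Category.assoc, ← MonoidalCategory.whiskerLeft_comp, Iso.hom_inv_id] at h2
  rw [MonoidalCategory.whiskerLeft_id, Category.comp_id] at h2
  rw [h2, Category.assoc, ← MonoidalCategory.whiskerLeft_comp]
  congr 2
  rw [Iso.comp_inv_eq, Category.assoc, Iso.eq_inv_comp]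
  exact (BraidedCategory.braiding_naturality_left f X).symm

end exact

section adapt

variable {T : Type u} [Category.{v} T] [Preadditive T] [HasZeroObject T]
    [HasShift T ℤ] [∀ n : ℤ, (shiftFunctor T n).Additive] [Pretriangulated T]
    [MonoidalCategory T] [SymmetricCategory T] [TensorTriangulated T]

/-- The properties of `K` which are used. -/
structure SphK (K : T) [MonObj K] : Prop where
  unit (k e : ℤ) (c : (𝟙_ T)⟦k⟧ ⟶ K ⊗ (𝟙_ T)⟦e⟧) (hc : c ≠ 0) : IsIso (lext c)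
  comm (a b d d' : ℤ) (x : (𝟙_ T)⟦a⟧ ⟶ K ⊗ (𝟙_ T)⟦d⟧) (y : (𝟙_ T)⟦b⟧ ⟶ K ⊗ (𝟙_ T)⟦d'⟧) :
    pr x y ≫ K ◁ (β_ _ _).hom = (β_ _ _).hom ≫ pr y x

variable {n : ℕ} (t : Tower T n)

/-- the map of a stage to the top -/
def tj : (r : ℕ) → (t.E r ⟶ t.E 0)
  | 0 => 𝟙 _
  | r + 1 => t.f r ≫ tj r

variable {K : T} [MonObj K]

/-- a stage at which the image of the homology jumps -/
def Jump (K : T) [MonObj K] (r : ℕ) : Prop :=
  ∃ (e : ℤ) (y : (𝟙_ T)⟦e⟧ ⟶ K ⊗ t.E r), ¬ ∃ y' : (𝟙_ T)⟦e⟧ ⟶ K ⊗ t.E (r + 1),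
    y ≫ K ◁ tj t r = y' ≫ K ◁ tj t (r + 1)

theorem Jump.lt {r : ℕ} (h : Jump t K r) : r < n := by
  by_contra hr
  obtain ⟨e, y, hy⟩ := h
  apply hy
  refine ⟨0, ?_⟩
  have h1 : tj t r = 0 := (t.isZero r (not_lt.mp hr)).eq_of_src _ _
  rw [h1, MonoidalPreadditive.whiskerLeft_zero, comp_zero, zero_comp]

/-- the index set of the basis -/
abbrev JI (K : T) [MonObj K] : Type := {r : Fin n // Jump t K r.1}

noncomputable instance : Fintype (JI t K) := by
  classical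
  exact Subtype.fintype _

variable {t}

/-- the degree of the letter -/
noncomputable def JI.e (i : JI t K) : ℤ := i.2.choose

/-- the letter -/
noncomputable def JI.y (i : JI t K) : (𝟙_ T)⟦i.e⟧ ⟶ K ⊗ t.E i.1.1 := i.2.choose_spec.choose

theorem JI.y_spec (i : JI t K) : ¬ ∃ y' : (𝟙_ T)⟦i.e⟧ ⟶ K ⊗ t.E (i.1.1 + 1),
    i.y ≫ K ◁ tj t i.1.1 = y' ≫ K ◁ tj t (i.1.1 + 1) := i.2.choose_spec.choose_spec

theorem JI.y_g (i : JI t K) : i.y ≫ K ◁ t.g i.1.1 ≠ 0 := by
  intro h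
  obtain ⟨y', hy'⟩ := exact_left' K (t.dist _ i.1.2) i.y h
  exact i.y_spec ⟨y', by rw [hy', Category.assoc, ← MonoidalCategory.whiskerLeft_comp]; rfl⟩

/-- the letter in the homology of `P` -/
noncomputable def JI.z (i : JI t K) : (𝟙_ T)⟦i.e⟧ ⟶ K ⊗ t.E 0 := i.y ≫ K ◁ tj t i.1.1

variable (hK : SphK K)

include hK in
/-- the span of the letters of stage at least `r` -/
theorem exists_coeff (r : ℕ) (k : ℤ) (y : (𝟙_ T)⟦k⟧ ⟶ K ⊗ t.E r) :
    ∃ c : ∀ i : JI t K, (𝟙_ T)⟦k⟧ ⟶ K ⊗ (𝟙_ T)⟦i.e⟧, (∀ i, i.1.1 < r → c i = 0) ∧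
      y ≫ K ◁ tj t r = ∑ i, c i ≫ lext i.z := by
  classical
  obtain ⟨s, hs⟩ : ∃ s, n ≤ r + s := ⟨n, by omega⟩
  induction s generalizing r with
  | zero =>
    refine ⟨fun _ => 0, fun _ _ => rfl, ?_⟩
    have h1 : tj t r = 0 := (t.isZero r hs).eq_of_src _ _
    rw [h1, MonoidalPreadditive.whiskerLeft_zero, comp_zero]
    exact (Finset.sum_eq_zero fun i _ => zero_comp).symm
  | succ s ih =>
    by_cases hr : n ≤ r
    · refine ⟨fun _ => 0, fun _ _ => rfl, ?_⟩
      have h1 : tj t r = 0 := (t.isZero r hr).eq_of_src _ _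
      rw [h1, MonoidalPreadditive.whiskerLeft_zero, comp_zero]
      exact (Finset.sum_eq_zero fun i _ => zero_comp).symm
    rw [not_le] at hr
    by_cases hj : Jump t K r
    · -- subtract a multiple of the letter
      let i₀ : JI t K := ⟨⟨r, hr⟩, hj⟩
      have h1 := hK.unit _ _ _ i₀.y_g
      let c : (𝟙_ T)⟦k⟧ ⟶ K ⊗ (𝟙_ T)⟦i₀.e⟧ := (y ≫ K ◁ t.g r) ≫ inv (lext (i₀.y ≫ K ◁ t.g r))
      have h2 : c ≫ lext i₀.y ≫ K ◁ t.g r = y ≫ K ◁ t.g r := by
        rw [← lext_comp]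
        change ((y ≫ K ◁ t.g r) ≫ inv (lext (i₀.y ≫ K ◁ t.g r))) ≫
          lext (i₀.y ≫ K ◁ t.g r) = _
        rw [Category.assoc, IsIso.inv_hom_id, Category.comp_id]
      obtain ⟨y', hy'⟩ := exact_left' K (t.dist _ hr) (y - c ≫ lext i₀.y) (by
        rw [Preadditive.sub_comp, Category.assoc, h2, sub_self])
      obtain ⟨c', hc', h3⟩ := ih (r + 1) y' (by omega)
      refine ⟨fun i => c' i + if h : i = i₀ then c ≫ eqToHom (by rw [h]) else 0, ?_, ?_⟩
      · intro i hi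
        have hne : i ≠ i₀ := by
          rintro rfl
          exact lt_irrefl _ hi
        simp only [dif_neg hne, add_zero]
        exact hc' i (by omega)
      · have h4 : ∑ i : JI t K, (c' i + if h : i = i₀ then c ≫ eqToHom (by rw [h]) else 0) ≫
            lext i.z = ∑ i, c' i ≫ lext i.z + c ≫ lext i₀.z := by
          simp only [Preadditive.add_comp, Finset.sum_add_distrib]
          congr 1
          rw [Finset.sum_eq_single i₀]
          · rw [dif_pos rfl, eqToHom_refl, Category.comp_id]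
          · intro i _ hi
            rw [dif_neg hi, zero_comp]
          · intro h
            exact absurd (Finset.mem_univ _) h
        refine Eq.trans ?_ h4.symm
        rw [← h3]
        have h5 : y = y' ≫ K ◁ t.f r + c ≫ lext i₀.y := by rw [← hy', sub_add_cancel]
        conv_lhs => rw [h5]
        rw [Preadditive.add_comp, Category.assoc, Category.assoc, ← lext_comp,
          ← MonoidalCategory.whiskerLeft_comp]
        rfl
    · -- the image does not change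
      have hj' : ∃ y' : (𝟙_ T)⟦k⟧ ⟶ K ⊗ t.E (r + 1),
          y ≫ K ◁ tj t r = y' ≫ K ◁ tj t (r + 1) := by
        by_contra h
        exact hj ⟨k, y, h⟩
      obtain ⟨y', hy'⟩ := hj'
      obtain ⟨c', hc', h3⟩ := ih (r + 1) y' (by omega)
      exact ⟨c', fun i hi => hc' i (by omega), by rw [hy', h3]⟩

include hK in
/-- independence of the letters -/
theorem coeff_eq_zero (k : ℤ) (c : ∀ i : JI t K, (𝟙_ T)⟦k⟧ ⟶ K ⊗ (𝟙_ T)⟦i.e⟧)
    (hc : ∑ i, c i ≫ lext i.z = 0) (i : JI t K) : c i = 0 := by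
  classical
  obtain ⟨s, hs⟩ : ∃ s, i.1.1 = s := ⟨_, rfl⟩
  induction s using Nat.strong_induction_on generalizing i with
  | _ s ih =>
    by_contra h0
    have h1 := hK.unit _ _ _ h0
    -- the other terms come from the next stage
    have h2 : ∀ l : JI t K, l ≠ i → ∃ w : (𝟙_ T)⟦k⟧ ⟶ K ⊗ t.E (i.1.1 + 1),
        c l ≫ lext l.z = w ≫ K ◁ tj t (i.1.1 + 1) := by
      intro l hl
      rcases lt_trichotomy l.1.1 i.1.1 with hlt | heq | hgt
      · rw [ih l.1.1 (hs ▸ hlt) l rfl]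
        exact ⟨0, by rw [zero_comp, zero_comp]⟩
      · exact absurd (Subtype.ext (Fin.ext heq)) hl
      · obtain ⟨m, hm⟩ := Nat.exists_eq_add_of_lt hgt
        have h3 : ∀ m : ℕ, ∃ g : t.E (i.1.1 + 1 + m) ⟶ t.E (i.1.1 + 1),
            g ≫ tj t (i.1.1 + 1) = tj t (i.1.1 + 1 + m) := by
          intro m
          induction m with
          | zero => exact ⟨𝟙 _, Category.id_comp _⟩
          | succ m ih2 =>
            obtain ⟨g, hg⟩ := ih2
            exact ⟨t.f _ ≫ g, by rw [Category.assoc, hg]; rfl⟩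
        obtain ⟨g, hg⟩ : ∃ g : t.E l.1.1 ⟶ t.E (i.1.1 + 1), g ≫ tj t (i.1.1 + 1) = tj t l.1.1 := by
          have h4 : l.1.1 = i.1.1 + 1 + m := by omega
          rw [h4]
          exact h3 m
        refine ⟨c l ≫ lext (l.y ≫ K ◁ g), ?_⟩
        rw [Category.assoc, ← lext_comp, Category.assoc, ← MonoidalCategory.whiskerLeft_comp, hg]
        rfl
    choose w hw using h2
    have h3 : c i ≫ lext i.z = (- ∑ l : {l : JI t K // l ≠ i}, w l.1 l.2) ≫
        K ◁ tj t (i.1.1 + 1) := by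
      rw [Preadditive.neg_comp, Preadditive.sum_comp, eq_neg_iff_add_eq_zero]
      rw [← hc, ← Finset.add_sum_erase _ _ (Finset.mem_univ i)]
      congr 1
      rw [Finset.sum_subtype (Finset.univ.erase i) (p := fun l => l ≠ i) (by simp)]
      exact Finset.sum_congr rfl fun l _ => (hw l.1 l.2).symm
    apply i.y_spec
    refine ⟨(un K _ ≫ inv (lext (c i))) ≫
      lext (- ∑ l : {l : JI t K // l ≠ i}, w l.1 l.2), ?_⟩
    rw [Category.assoc, ← lext_comp, ← h3, lext_lext]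
    simp only [Category.assoc, IsIso.inv_hom_id_assoc]
    rw [FM.unit_bind]
    rfl

end adapt

end Vale.Agent.P241.YK
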