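import Vale.Agent.P241.H963.Fil

/-!
# P241, block YK: the image filtration and the coordinates

`W = ⨁ A i` (`d : Dec A W`), `x : W ⟶ K ⊗ P` with `lext x` invertible and adapted to the tower:
the coordinates `i` with `r i < r'` vanish on `K ⊗ E r'`. Then the elements of `ImFil K j m n B`
have zero coordinates on the words of weight `< n`.
-/

open CategoryTheory MonoidalCategory MonObj
open Vale.Agent.P093.SymPow Vale.Agent.P251.M Vale.Agent.P093.Cox Vale.Agent.P241.H568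

set_option linter.unusedSectionVars false

universe v u

namespace Vale.Agent.P241.YK

section mid

variable {C : Type u} [Category.{v} C] [MonoidalCategory C] [SymmetricCategory C] {K : C}

/-- a map between free modules, tensored on the left with an object -/
def midL (E : C) {B Y : C} (φ : K ⊗ B ⟶ K ⊗ Y) : K ⊗ (E ⊗ B) ⟶ K ⊗ (E ⊗ Y) :=
  sw2 K E B ≫ E ◁ φ ≫ sw2 E K Y

/-- a map between free modules, tensored on the right with an object -/
def midR {A X : C} (ψ : K ⊗ A ⟶ K ⊗ X) (B : C) : K ⊗ (A ⊗ B) ⟶ K ⊗ (X ⊗ B) :=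
  (α_ K A B).inv ≫ ψ ▷ B ≫ (α_ K X B).hom

@[reassoc]
theorem midL_comp (E : C) {B Y Z : C} (φ : K ⊗ B ⟶ K ⊗ Y) (ψ : K ⊗ Y ⟶ K ⊗ Z) :
    midL E (φ ≫ ψ) = midL E φ ≫ midL E ψ := by
  unfold midL
  simp only [MonoidalCategory.whiskerLeft_comp, Category.assoc, sw2_sw2_assoc]

@[reassoc]
theorem midR_comp {A X Z : C} (φ : K ⊗ A ⟶ K ⊗ X) (ψ : K ⊗ X ⟶ K ⊗ Z) (B : C) :
    midR (φ ≫ ψ) B = midR φ B ≫ midR ψ B := by
  unfold midR
  simp

theorem midL_whiskerLeft (E : C) {B Y : C} (g : B ⟶ Y) :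
    midL E (K ◁ g) = K ◁ (E ◁ g) := by
  unfold midL
  rw [sw2_naturality_right, sw2_sw2_assoc]

theorem midR_whiskerLeft {A X : C} (g : A ⟶ X) (B : C) : midR (K ◁ g) B = K ◁ (g ▷ B) := by
  unfold midR
  simp

@[reassoc]
theorem midL_natural {E E' : C} (e : E ⟶ E') {B Y : C} (φ : K ⊗ B ⟶ K ⊗ Y) :
    K ◁ (e ▷ B) ≫ midL E' φ = midL E φ ≫ K ◁ (e ▷ Y) := by
  unfold midL
  have h1 := sw2_naturality (𝟙 K) e (𝟙 B)
  have h2 := sw2_naturality e (𝟙 K) (𝟙 Y)
  simp only [id_tensorHom, tensorHom_id, id_whiskerRight] at h1 h2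
  have h3 : (e ⊗ₘ K ◁ 𝟙 Y) = e ▷ (K ⊗ Y) := by simp
  have h4 : K ◁ (e ▷ Y) = (𝟙 K ⊗ₘ e ▷ Y) := by simp
  rw [reassoc_of% h1]
  simp only [Category.assoc]
  congr 1
  rw [MonoidalCategory.whiskerLeft_id, tensorHom_id] at *
  rw [← whisker_exchange_assoc]
  congr 1

@[reassoc]
theorem midR_natural {A X : C} (ψ : K ⊗ A ⟶ K ⊗ X) {B B' : C} (b : B ⟶ B') :
    K ◁ (A ◁ b) ≫ midR ψ B' = midR ψ B ≫ K ◁ (X ◁ b) := by
  unfold midR
  have h1 : K ◁ (A ◁ b) ≫ (α_ K A B').inv = (α_ K A B).inv ≫ (K ⊗ A) ◁ b := by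
    rw [associator_inv_naturality_right]
  rw [reassoc_of% h1, whisker_exchange_assoc]
  simp

theorem mid_natural {E P A W E' P' A' W' : C} (j : E ⟶ P) (ζ : K ⊗ P ⟶ K ⊗ W) (a : W ⟶ A)
    (j' : E' ⟶ P') (θ : K ⊗ P' ⟶ K ⊗ W') (a' : W' ⟶ A') :
    K ◁ (j ⊗ₘ j') ≫ (midL P θ ≫ midR ζ W') ≫ K ◁ (a ⊗ₘ a') =
      midL E (K ◁ j' ≫ θ ≫ K ◁ a') ≫ midR (K ◁ j ≫ ζ ≫ K ◁ a) A' := by
  rw [tensorHom_def' j j', tensorHom_def' a a', MonoidalCategory.whiskerLeft_comp,
    MonoidalCategory.whiskerLeft_comp]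
  simp only [Category.assoc]
  rw [midL_natural_assoc, ← midR_natural_assoc, ← midL_whiskerLeft, ← midL_comp_assoc]
  have h : K ◁ (j ▷ W') ≫ K ◁ (P ◁ a') = K ◁ (E ◁ a') ≫ K ◁ (j ▷ A') := by
    rw [← MonoidalCategory.whiskerLeft_comp, ← whisker_exchange, MonoidalCategory.whiskerLeft_comp]
  rw [reassoc_of% h, ← midL_whiskerLeft E a', ← midL_comp_assoc, ← midR_whiskerLeft j,
    ← midR_whiskerLeft a, ← midR_comp_assoc, ← midR_comp]
  simp only [Category.assoc]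

variable [MonObj K]

theorem inv_lext_rst' {A X : C} (x : A ⟶ K ⊗ X) (B : C) [IsIso (lext x)] :
    inv (lext (rst x B)) = midR (inv (lext x)) B := inv_lext_rst x B

theorem inv_lext_ins' (X : C) {B Y : C} (y : B ⟶ K ⊗ Y) [IsIso (lext y)] :
    inv (lext (ins X y)) = midL X (inv (lext y)) := inv_lext_ins X y

theorem inv_lext_pr' {A B X Y : C} (x : A ⟶ K ⊗ X) (y : B ⟶ K ⊗ Y) [IsIso (lext x)]
    [IsIso (lext y)] :
    inv (lext (pr x y)) = midL X (inv (lext y)) ≫ midR (inv (lext x)) B := by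
  rw [inv_lext_pr, inv_lext_ins', inv_lext_rst']

end mid

section B2

variable {C : Type u} [Category.{v} C] [MonoidalCategory C] [Preadditive C]
  [MonoidalPreadditive C] [SymmetricCategory C] {K : C}

theorem midL_zero (E : C) {B Y : C} : midL E (0 : K ⊗ B ⟶ K ⊗ Y) = 0 := by
  unfold midL
  rw [MonoidalPreadditive.whiskerLeft_zero, Limits.zero_comp, Limits.comp_zero]

theorem midR_zero {A X : C} (B : C) : midR (0 : K ⊗ A ⟶ K ⊗ X) B = 0 := by
  unfold midR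
  rw [MonoidalPreadditive.zero_whiskerRight, Limits.zero_comp, Limits.comp_zero]

variable [MonObj K] {ι : Type} [Fintype ι] {P : C} (L : Letters K ι P) {W : C}
  (d : Dec L.A W) (x : W ⟶ K ⊗ P)

theorem wto_eq_win (m : ℕ) (u : Fin m → ι) : wto d.inj m u = win d m u := by
  induction m with
  | zero => rfl
  | succ m ih => rw [wto_succ, win_succ, ih]

/-- `x` is a basis which is adapted to the tower. -/
structure Letters.Adapted : Prop where
  iso : IsIso (lext x)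
  inj_x (i : ι) : d.inj i ≫ x = L.z i
  low (i : ι) (r : ℕ) (h : L.r i < r) : K ◁ L.j r ≫ inv (lext x) ≫ K ◁ d.prj i = 0

variable {L d x} (H : L.Adapted d x)

include H

theorem Letters.Adapted.wto_zero (m : ℕ) (s : Fin m → ℕ) (u : Fin m → ι)
    (h : ∑ k, L.r (u k) < ∑ k, s k) :
    haveI := H.iso
    K ◁ wto L.j m s ≫ inv (lext (pw x m)) ≫ K ◁ wpr d m u = 0 := by
  have := H.iso
  induction m with
  | zero => simp at h
  | succ m ih =>
    have e : inv (lext (pw x (m + 1))) = midL P (inv (lext (pw x m))) ≫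
        midR (inv (lext x)) (tpow W m) := inv_lext_pr' x (pw x m)
    have h1 := mid_natural (L.j (s 0)) (inv (lext x)) (d.prj (u 0)) (wto L.j m (Fin.tail s))
      (inv (lext (pw x m))) (wpr d m (Fin.tail u))
    rw [wpr_succ, wto_succ, e]
    refine Eq.trans ?_ (h1.trans ?_)
    · rfl
    · rw [Fin.sum_univ_succ, Fin.sum_univ_succ] at h
      by_cases h2 : ∑ k, L.r ((Fin.tail u) k) < ∑ k, (Fin.tail s) k
      · rw [ih (Fin.tail s) (Fin.tail u) h2, midL_zero, Limits.zero_comp]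
      · have h3 : L.r (u 0) < s 0 := by
          change ¬ ∑ k : Fin m, L.r (u k.succ) < ∑ k : Fin m, s k.succ at h2
          omega
        rw [H.low _ _ h3, midR_zero, Limits.comp_zero]

/-- **(B2).** -/
theorem Letters.Adapted.coord_zero {m n : ℕ} {B : C} {z : B ⟶ K ⊗ tpow P m}
    (hz : z ∈ ImFil K L.j m n B) (u : Fin m → ι) (h : ∑ k, L.r (u k) < n) :
    haveI := H.iso
    z ≫ inv (lext (pw x m)) ≫ K ◁ wpr d m u = 0 := by
  have := H.iso
  have h1 := ImFil_induction L.j (⊥ : AddSubgroup (B ⟶ K ⊗ wt L.A m u))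
    (postHom B (inv (lext (pw x m)) ≫ K ◁ wpr d m u)) (fun s z' hs => ?_) hz
  · exact h1
  · change (z' ≫ K ◁ wto L.j m s) ≫ inv (lext (pw x m)) ≫ K ◁ wpr d m u = 0
    rw [Category.assoc, H.wto_zero m s u (h.trans_le hs), Limits.comp_zero]

/-- the expansion in words -/
theorem Letters.Adapted.expand {m : ℕ} {B : C} (z : B ⟶ K ⊗ tpow P m) :
    haveI := H.iso
    z = ∑ u, (z ≫ inv (lext (pw x m)) ≫ K ◁ wpr d m u) ≫ lext (wto d.inj m u ≫ pw x m) := by
  have := H.iso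
  have h1 : z = z ≫ inv (lext (pw x m)) ≫ K ◁ 𝟙 _ ≫ lext (pw x m) := by
    rw [MonoidalCategory.whiskerLeft_id, Category.id_comp, IsIso.inv_hom_id, Category.comp_id]
  conv_lhs => rw [h1, ← sum_wpr_win d m]
  rw [whiskerLeft_sum, Preadditive.sum_comp, Preadditive.comp_sum, Preadditive.comp_sum]
  refine Finset.sum_congr rfl fun u _ => ?_
  rw [lext_pre, MonoidalCategory.whiskerLeft_comp, wto_eq_win]
  simp only [Category.assoc]

theorem Letters.Adapted.mem_of_coord {m n : ℕ} {B : C} {z : B ⟶ K ⊗ tpow P m}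
    (h : haveI := H.iso; ∀ u : Fin m → ι, ∑ k, L.r (u k) < n →
      z ≫ inv (lext (pw x m)) ≫ K ◁ wpr d m u = 0) : z ∈ ImFil K L.j m n B := by
  have := H.iso
  rw [H.expand z]
  refine AddSubgroup.sum_mem _ fun u _ => ?_
  by_cases h1 : ∑ k, L.r (u k) < n
  · rw [h u h1, Limits.zero_comp]
    exact AddSubgroup.zero_mem _
  · exact ImFil_lext L.j _ (ImFil_mono L.j (not_lt.mp h1) _ (L.word_mem d.inj x H.inj_x m u))

theorem Letters.Adapted.eq_zero_of_mem {m n N : ℕ} (hN : ∀ i, L.r i < N) (hn : m * N < n) {B : C}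
    {z : B ⟶ K ⊗ tpow P m} (hz : z ∈ ImFil K L.j m n B) : z = 0 := by
  have := H.iso
  rw [H.expand z]
  refine Finset.sum_eq_zero fun u _ => ?_
  rw [H.coord_zero hz u, Limits.zero_comp]
  calc ∑ k, L.r (u k) ≤ ∑ _k : Fin m, N := Finset.sum_le_sum fun k _ => (hN _).le
    _ = m * N := by rw [Finset.sum_const, Finset.card_univ, Fintype.card_fin, smul_eq_mul]
    _ < n := hn

theorem Letters.Adapted.mem_zero {m : ℕ} {B : C} (z : B ⟶ K ⊗ tpow P m) :
    z ∈ ImFil K L.j m 0 B :=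
  H.mem_of_coord fun _ h => absurd h (Nat.not_lt_zero _)

/-- a map which raises the filtration on the words raises the filtration -/
theorem Letters.Adapted.raise {m : ℕ} (y : tpow P m ⟶ tpow P m)
    (hy : ∀ u : Fin m → ι, wto d.inj m u ≫ pw x m ≫ K ◁ y ∈
      ImFil K L.j m (∑ k, L.r (u k) + 1) (wob L.A m u)) {n : ℕ} {B : C}
    {z : B ⟶ K ⊗ tpow P m} (hz : z ∈ ImFil K L.j m n B) : z ≫ K ◁ y ∈ ImFil K L.j m (n + 1) B := by
  have := H.iso
  rw [H.expand z, Preadditive.sum_comp]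
  refine AddSubgroup.sum_mem _ fun u _ => ?_
  by_cases h1 : ∑ k, L.r (u k) < n
  · rw [H.coord_zero hz u h1, Limits.zero_comp, Limits.zero_comp]
    exact AddSubgroup.zero_mem _
  · have h2 := hy u
    rw [← Category.assoc] at h2
    rw [Category.assoc, ← lext_comp]
    exact ImFil_lext L.j _ (ImFil_mono L.j (Nat.add_le_add_right (not_lt.mp h1) 1) _ h2)

/-- powers of a map -/
def powC {X : C} (y : X ⟶ X) : ℕ → (X ⟶ X)
  | 0 => 𝟙 X
  | n + 1 => powC y n ≫ y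

theorem Letters.Adapted.raise_pow {m : ℕ} (y : tpow P m ⟶ tpow P m)
    (hy : ∀ u : Fin m → ι, wto d.inj m u ≫ pw x m ≫ K ◁ y ∈
      ImFil K L.j m (∑ k, L.r (u k) + 1) (wob L.A m u)) {B : C}
    (z : B ⟶ K ⊗ tpow P m) (n : ℕ) : z ≫ K ◁ powC y n ∈ ImFil K L.j m n B := by
  induction n with
  | zero =>
    change z ≫ K ◁ 𝟙 _ ∈ _
    rw [MonoidalCategory.whiskerLeft_id, Category.comp_id]
    exact H.mem_zero z
  | succ n ih =>
    change z ≫ K ◁ (powC y n ≫ y) ∈ _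
    rw [MonoidalCategory.whiskerLeft_comp, ← Category.assoc]
    exact H.raise y hy ih

/-- **A map which raises the filtration is nilpotent.** -/
theorem Letters.Adapted.nilpotent {m N : ℕ} (hN : ∀ i, L.r i < N) (y : tpow P m ⟶ tpow P m)
    (hy : ∀ u : Fin m → ι, wto d.inj m u ≫ pw x m ≫ K ◁ y ∈
      ImFil K L.j m (∑ k, L.r (u k) + 1) (wob L.A m u)) :
    K ◁ powC y (m * N + 1) = 0 := by
  have h := H.eq_zero_of_mem hN (Nat.lt_succ_self (m * N)) (H.raise_pow y hy (𝟙 _) (m * N + 1))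
  rw [Category.id_comp] at h
  exact h

end B2

end Vale.Agent.P241.YK
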