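import Vale.Agent.P241.H963.Lax
import Vale.Agent.P241.H568.Words

/-!
# P241, block YK: Künneth for tensor powers, word objects

* `pw x m : tpow W m ⟶ K ⊗ tpow P m` : the power of `x : W ⟶ K ⊗ P`; `lext (pw x m)` is an
  isomorphism if `lext x` is one.
* `wob A m w` : the tensor product `A (w 0) ⊗ (A (w 1) ⊗ ⋯ ⊗ 𝟙)` of a family `A : ι → C` along a
  word `w : Fin m → ι`, `wto f m w : wob A m w ⟶ tpow W m` for `f i : A i ⟶ W`.
* `wprod x m w : wob A m w ⟶ K ⊗ wob X m w` for `x i : A i ⟶ K ⊗ X i`.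
-/

open CategoryTheory MonoidalCategory MonObj
open Vale.Agent.P093.SymPow Vale.Agent.P251.M Vale.Agent.P093.Cox

set_option linter.unusedSectionVars false

universe v u

namespace Vale.Agent.P241.YK

section Kun

variable {C : Type u} [Category.{v} C] [MonoidalCategory C] [SymmetricCategory C] {K : C}
  [MonObj K]

instance isIso_lext_rst {A X : C} (x : A ⟶ K ⊗ X) (B : C) [IsIso (lext x)] :
    IsIso (lext (rst x B)) := by
  rw [lext_rst]
  infer_instance

instance isIso_sw2 (X Y R : C) : IsIso (sw2 X Y R) := ⟨sw2 Y X R, sw2_sw2 _ _ _, sw2_sw2 _ _ _⟩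

instance isIso_lext_ins (X : C) {B Y : C} (y : B ⟶ K ⊗ Y) [IsIso (lext y)] :
    IsIso (lext (ins X y)) := by
  rw [lext_ins]
  infer_instance

instance isIso_lext_pr {A B X Y : C} (x : A ⟶ K ⊗ X) (y : B ⟶ K ⊗ Y) [IsIso (lext x)]
    [IsIso (lext y)] : IsIso (lext (pr x y)) := by
  rw [lext_pr]
  infer_instance

theorem inv_lext_rst {A X : C} (x : A ⟶ K ⊗ X) (B : C) [IsIso (lext x)] :
    inv (lext (rst x B)) = (α_ K X B).inv ≫ inv (lext x) ▷ B ≫ (α_ K A B).hom := by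
  refine IsIso.inv_eq_of_hom_inv_id ?_
  rw [lext_rst]
  simp only [Category.assoc, Iso.hom_inv_id_assoc]
  rw [← comp_whiskerRight_assoc, IsIso.hom_inv_id, id_whiskerRight, Category.id_comp,
    Iso.inv_hom_id]

theorem inv_lext_ins (X : C) {B Y : C} (y : B ⟶ K ⊗ Y) [IsIso (lext y)] :
    inv (lext (ins X y)) = sw2 K X Y ≫ X ◁ inv (lext y) ≫ sw2 X K B := by
  refine IsIso.inv_eq_of_hom_inv_id ?_
  rw [lext_ins]
  simp only [Category.assoc, sw2_sw2_assoc]
  rw [← MonoidalCategory.whiskerLeft_comp_assoc, IsIso.hom_inv_id,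
    MonoidalCategory.whiskerLeft_id, Category.id_comp, sw2_sw2]

theorem inv_lext_pr {A B X Y : C} (x : A ⟶ K ⊗ X) (y : B ⟶ K ⊗ Y) [IsIso (lext x)]
    [IsIso (lext y)] :
    inv (lext (pr x y)) = inv (lext (ins X y)) ≫ inv (lext (rst x B)) := by
  rw [← IsIso.inv_comp]
  congr 1
  exact lext_pr x y

instance isIso_lext_un (A : C) : IsIso (lext (un K A)) := by
  have h : lext (un K A) = 𝟙 _ := FM.bind_unit A
  rw [h]
  infer_instance

/-- the power of a map `W ⟶ K ⊗ P` -/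
def pw {W P : C} (x : W ⟶ K ⊗ P) : (m : ℕ) → (tpow W m ⟶ K ⊗ tpow P m)
  | 0 => un K (𝟙_ C)
  | m + 1 => pr x (pw x m)

theorem pw_zero {W P : C} (x : W ⟶ K ⊗ P) : pw x 0 = un K (𝟙_ C) := rfl

theorem pw_succ {W P : C} (x : W ⟶ K ⊗ P) (m : ℕ) : pw x (m + 1) = pr x (pw x m) := rfl

instance isIso_lext_pw {W P : C} (x : W ⟶ K ⊗ P) [IsIso (lext x)] (m : ℕ) :
    IsIso (lext (pw x m)) := by
  induction m with
  | zero => exact isIso_lext_un _
  | succ m ih => exact isIso_lext_pr x (pw x m)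

end Kun

section Word

variable {C : Type u} [Category.{v} C] [MonoidalCategory C]

/-- the tensor product of a family along a word -/
abbrev wob {ι : Type*} (A : ι → C) (m : ℕ) (w : Fin m → ι) : C := H568.wt A m w

/-- functoriality -/
def wmap {ι : Type*} {A B : ι → C} (f : ∀ i, A i ⟶ B i) :
    (m : ℕ) → (w : Fin m → ι) → (wob A m w ⟶ wob B m w)
  | 0, _ => 𝟙 (𝟙_ C)
  | m + 1, w => f (w 0) ⊗ₘ wmap f m (Fin.tail w)

/-- the map from a word object to the power -/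
def wto {ι : Type*} {A : ι → C} {W : C} (f : ∀ i, A i ⟶ W) :
    (m : ℕ) → (w : Fin m → ι) → (wob A m w ⟶ tpow W m)
  | 0, _ => 𝟙 (𝟙_ C)
  | m + 1, w => f (w 0) ⊗ₘ wto f m (Fin.tail w)

theorem wto_succ {ι : Type*} {A : ι → C} {W : C} (f : ∀ i, A i ⟶ W) (m : ℕ)
    (w : Fin (m + 1) → ι) : wto f (m + 1) w = f (w 0) ⊗ₘ wto f m (Fin.tail w) := rfl

theorem wmap_wto {ι : Type*} {A B : ι → C} {W : C} (f : ∀ i, A i ⟶ B i) (g : ∀ i, B i ⟶ W)
    (m : ℕ) (w : Fin m → ι) : wmap f m w ≫ wto g m w = wto (fun i => f i ≫ g i) m w := by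
  induction m with
  | zero => exact Category.comp_id _
  | succ m ih =>
    change (f (w 0) ⊗ₘ wmap f m _) ≫ (g (w 0) ⊗ₘ wto g m _) = (f (w 0) ≫ g (w 0)) ⊗ₘ wto _ m _
    rw [tensorHom_comp_tensorHom, ih]

theorem wto_tpowMap {ι : Type*} {A : ι → C} {W W' : C} (f : ∀ i, A i ⟶ W) (g : W ⟶ W')
    (m : ℕ) (w : Fin m → ι) : wto f m w ≫ tpowMap g m = wto (fun i => f i ≫ g) m w := by
  induction m with
  | zero => exact Category.comp_id _
  | succ m ih =>
    change (f (w 0) ⊗ₘ wto f m _) ≫ (g ⊗ₘ tpowMap g m) = (f (w 0) ≫ g) ⊗ₘ wto _ m _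
    rw [tensorHom_comp_tensorHom, ih]

variable [SymmetricCategory C] {K : C} [MonObj K]

/-- the product of the letters -/
def wprod {ι : Type*} {A X : ι → C} (x : ∀ i, A i ⟶ K ⊗ X i) :
    (m : ℕ) → (w : Fin m → ι) → (wob A m w ⟶ K ⊗ wob X m w)
  | 0, _ => un K (𝟙_ C)
  | m + 1, w => pr (x (w 0)) (wprod x m (Fin.tail w))

theorem wto_pw {ι : Type*} {A : ι → C} {W P : C} (f : ∀ i, A i ⟶ W) (x : W ⟶ K ⊗ P) {X : ι → C}
    (y : ∀ i, A i ⟶ K ⊗ X i) (j : ∀ i, X i ⟶ P) (h : ∀ i, y i ≫ K ◁ j i = f i ≫ x)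
    (m : ℕ) (w : Fin m → ι) :
    wto f m w ≫ pw x m = wprod y m w ≫ K ◁ wto j m w := by
  induction m with
  | zero =>
    change 𝟙 _ ≫ un K _ = un K _ ≫ K ◁ 𝟙 _
    rw [MonoidalCategory.whiskerLeft_id, Category.comp_id, Category.id_comp]
  | succ m ih =>
    change (f (w 0) ⊗ₘ wto f m _) ≫ pr x (pw x m) = pr (y (w 0)) (wprod y m _) ≫
      K ◁ (j (w 0) ⊗ₘ wto j m _)
    rw [← pr_pre, ← pr_comp, ih, h]

theorem adjS_zero {m : ℕ} (i : Fin m) : adj i.succ 0 = 0 := by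
  apply Fin.ext
  rw [adj_apply]
  simp

theorem adjS_succ {m : ℕ} (i : Fin m) (j : Fin (m + 1)) :
    adj i.succ j.succ = (adj i j).succ := by
  apply Fin.ext
  rw [adj_apply, Fin.val_succ, Fin.val_succ, Fin.val_succ, adj_apply]
  split_ifs <;> omega

/-- The adjacent transposition on words. -/
theorem exists_wsw {ι : Type*} (A : ι → C) (m : ℕ) (i : Fin m) (w : Fin (m + 1) → ι) :
    ∃ γ : wob A (m + 1) w ⟶ wob A (m + 1) (w ∘ adj i), IsIso γ ∧
      ∀ {W : C} (f : ∀ i, A i ⟶ W),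
        wto f (m + 1) w ≫ sw W (m + 1) i = γ ≫ wto f (m + 1) (w ∘ adj i) := by
  induction m with
  | zero => exact i.elim0
  | succ m ih =>
    refine Fin.cases ?_ (fun i => ?_) i
    · have h : w ∘ adj (0 : Fin (m + 1)) =
          Fin.cons (w 1) (Fin.cons (w 0) (fun j => w j.succ.succ)) := by
        funext j
        refine Fin.cases ?_ (fun j => ?_) j
        · change w (adj 0 0) = w 1
          congr 1
        · refine Fin.cases ?_ (fun j => ?_) j
          · change w (adj 0 (Fin.succ 0)) = w 0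
            congr 1
          · change w (adj 0 j.succ.succ) = w j.succ.succ
            congr 1
      rw [h]
      refine ⟨sw2 (A (w 0)) (A (w 1)) (wob A m (fun j => w j.succ.succ)), isIso_sw2 _ _ _,
        fun {W} f => ?_⟩
      exact sw2_naturality (f (w 0)) (f (w 1)) (wto f m (fun j => w j.succ.succ))
    · obtain ⟨γ, hγ, h⟩ := ih i (Fin.tail w)
      have e : w ∘ adj i.succ = Fin.cons (w 0) ((Fin.tail w) ∘ adj i) := by
        funext j
        refine Fin.cases ?_ (fun j => ?_) j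
        · change w (adj i.succ 0) = w 0
          rw [adjS_zero]
        · change w (adj i.succ j.succ) = w (adj i j).succ
          rw [adjS_succ]
      rw [e]
      have i1 : IsIso (A (w 0) ◁ γ) := by
        have := hγ
        infer_instance
      refine ⟨A (w 0) ◁ γ, i1, fun {W} f => ?_⟩
      change (f (w 0) ⊗ₘ wto f (m + 1) _) ≫ W ◁ sw W (m + 1) i =
        A (w 0) ◁ γ ≫ (f (w 0) ⊗ₘ wto f (m + 1) ((Fin.tail w) ∘ adj i))
      rw [← id_tensorHom, ← id_tensorHom, tensorHom_comp_tensorHom, tensorHom_comp_tensorHom,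
        h f, Category.comp_id, Category.id_comp]

end Word

end Vale.Agent.P241.YK
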