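import Vale.Agent.P251.M.Kleisli
import Vale.Agent.P093.N.SymPow

/-!
# P241, block YK: external products in the homology of an associative ring object

`K` is a monoid object of a symmetric monoidal category. For `x : A ⟶ K ⊗ X` and
`y : B ⟶ K ⊗ Y` the external product is `pr x y : A ⊗ B ⟶ K ⊗ (X ⊗ Y)`; `lext x` is the left
`K`-linear extension of `x`. No commutativity of `K` is used.
-/

open CategoryTheory MonoidalCategory MonObj
open Vale.Agent.P093.SymPow Vale.Agent.P251.M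

set_option linter.unusedSectionVars false

universe v u

namespace Vale.Agent.P241.YK

section Lax

variable {C : Type u} [Category.{v} C] [MonoidalCategory C] {K : C} [MonObj K]

/-- the left `K`-linear extension -/
abbrev lext {A X : C} (x : A ⟶ K ⊗ X) : K ⊗ A ⟶ K ⊗ X := FM.bind x

/-- the unit of the free module -/
abbrev un (K : C) [MonObj K] (A : C) : A ⟶ K ⊗ A := FM.unit K A

/-- the product with an object on the right -/
def rst {A X : C} (x : A ⟶ K ⊗ X) (B : C) : A ⊗ B ⟶ K ⊗ (X ⊗ B) := x ▷ B ≫ (α_ K X B).hom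

@[reassoc]
theorem lext_comp {A X Y : C} (x : A ⟶ K ⊗ X) (g : X ⟶ Y) :
    lext (x ≫ K ◁ g) = lext x ≫ K ◁ g := (FM.bind_whiskerLeft x g).symm

@[reassoc]
theorem lext_pre {A A' X : C} (a : A' ⟶ A) (x : A ⟶ K ⊗ X) :
    lext (a ≫ x) = K ◁ a ≫ lext x := by
  unfold lext FM.bind
  rw [MonoidalCategory.whiskerLeft_comp, Category.assoc]

@[reassoc]
theorem lext_lext {A X Y : C} (x : A ⟶ K ⊗ X) (y : X ⟶ K ⊗ Y) :
    lext (x ≫ lext y) = lext x ≫ lext y := (FM.bind_bind x y).symm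

theorem lext_inj {A X : C} {f g : A ⟶ K ⊗ X} (h : lext f = lext g) : f = g := by
  rw [← FM.unit_bind f, ← FM.unit_bind g]
  exact congrArg (un K A ≫ ·) h

@[reassoc]
theorem lext_rst {A X : C} (x : A ⟶ K ⊗ X) (B : C) :
    lext (rst x B) = (α_ K A B).inv ≫ lext x ▷ B ≫ (α_ K X B).hom := by
  unfold lext rst FM.bind
  simp only [MonoidalCategory.whiskerLeft_comp, comp_whiskerRight, Category.assoc]
  have h1 : μ ▷ X ▷ B ≫ (α_ K X B).hom = (α_ (K ⊗ K) X B).hom ≫ μ ▷ (X ⊗ B) := by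
    rw [associator_naturality_left]
  rw [h1]
  simp

@[reassoc]
theorem rst_comp {A X Y : C} (x : A ⟶ K ⊗ X) (g : X ⟶ Y) (B : C) :
    rst (x ≫ K ◁ g) B = rst x B ≫ K ◁ (g ▷ B) := by
  unfold rst
  simp

@[reassoc]
theorem rst_pre {A A' X : C} (a : A' ⟶ A) (x : A ⟶ K ⊗ X) (B : C) :
    rst (a ≫ x) B = a ▷ B ≫ rst x B := by
  unfold rst
  simp

@[reassoc]
theorem whiskerLeft_rst {A X : C} (x : A ⟶ K ⊗ X) {B B' : C} (b : B ⟶ B') :
    A ◁ b ≫ rst x B' = rst x B ≫ K ◁ (X ◁ b) := by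
  unfold rst
  rw [whisker_exchange_assoc]
  simp

@[reassoc]
theorem rst_lext {A X Y : C} (x : A ⟶ K ⊗ X) (y : X ⟶ K ⊗ Y) (B : C) :
    rst (x ≫ lext y) B = rst x B ≫ lext (rst y B) := by
  rw [lext_rst]
  unfold rst
  simp

theorem rst_un (A B : C) : rst (un K A) B = un K (A ⊗ B) := by
  unfold rst un FM.unit
  simp

@[reassoc]
theorem rst_rst {A X : C} (x : A ⟶ K ⊗ X) (B D : C) :
    rst (rst x B) D ≫ K ◁ (α_ X B D).hom = (α_ A B D).hom ≫ rst x (B ⊗ D) := by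
  unfold rst
  simp

variable [SymmetricCategory C]

/-- the product with an object on the left -/
def ins (X : C) {B Y : C} (y : B ⟶ K ⊗ Y) : X ⊗ B ⟶ K ⊗ (X ⊗ Y) := X ◁ y ≫ sw2 X K Y

@[reassoc]
theorem ins_comp (X : C) {B Y Y' : C} (y : B ⟶ K ⊗ Y) (g : Y ⟶ Y') :
    ins X (y ≫ K ◁ g) = ins X y ≫ K ◁ (X ◁ g) := by
  unfold ins
  rw [MonoidalCategory.whiskerLeft_comp, Category.assoc, Category.assoc, sw2_naturality_right]

@[reassoc]
theorem ins_pre (X : C) {B B' Y : C} (b : B' ⟶ B) (y : B ⟶ K ⊗ Y) :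
    ins X (b ≫ y) = X ◁ b ≫ ins X y := by
  unfold ins
  rw [MonoidalCategory.whiskerLeft_comp, Category.assoc]

@[reassoc]
theorem whiskerRight_ins {X X' : C} (f : X ⟶ X') {B Y : C} (y : B ⟶ K ⊗ Y) :
    f ▷ B ≫ ins X' y = ins X y ≫ K ◁ (f ▷ Y) := by
  unfold ins
  have h := sw2_naturality f (𝟙 K) (𝟙 Y)
  simp only [id_tensorHom, tensorHom_id, id_whiskerRight] at h
  rw [← whisker_exchange_assoc]
  simp only [Category.assoc]
  congr 1

/-- the external product -/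
def pr {A B X Y : C} (x : A ⟶ K ⊗ X) (y : B ⟶ K ⊗ Y) : A ⊗ B ⟶ K ⊗ (X ⊗ Y) :=
  (x ⊗ₘ y) ≫ FM.ten K X Y

theorem pr_eq {A B X Y : C} (x : A ⟶ K ⊗ X) (y : B ⟶ K ⊗ Y) :
    pr x y = rst x B ≫ lext (ins X y) := by
  unfold pr rst ins lext FM.bind FM.ten sw2 tensorμ
  simp only [tensorHom_def, Category.assoc, MonoidalCategory.whiskerLeft_comp]
  congr 1
  rw [← associator_naturality_right_assoc]

theorem sw2_tensor (X U V Y : C) :
    sw2 X U (V ⊗ Y) ≫ U ◁ sw2 X V Y ≫ (α_ U V (X ⊗ Y)).inv =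
      X ◁ (α_ U V Y).inv ≫ sw2 X (U ⊗ V) Y := by
  unfold sw2
  rw [BraidedCategory.braiding_tensor_right_hom]
  simp only [comp_whiskerRight, MonoidalCategory.whiskerLeft_comp, Category.assoc]
  monoidal

@[reassoc]
theorem lext_ins (X : C) {B Y : C} (y : B ⟶ K ⊗ Y) :
    lext (ins X y) = sw2 K X B ≫ X ◁ lext y ≫ sw2 X K Y := by
  unfold ins lext FM.bind
  have h1 : sw2 K X B ≫ X ◁ (K ◁ y) = K ◁ (X ◁ y) ≫ sw2 K X (K ⊗ Y) :=
    (sw2_naturality_right (X := K) (Y := X) y).symm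
  simp only [MonoidalCategory.whiskerLeft_comp, Category.assoc]
  rw [reassoc_of% h1]
  congr 1
  have h2 : X ◁ μ ▷ Y ≫ sw2 X K Y = sw2 X (K ⊗ K) Y ≫ μ ▷ (X ⊗ Y) := by
    have h := sw2_naturality (𝟙 X) (μ : K ⊗ K ⟶ K) (𝟙 Y)
    simp only [id_tensorHom, tensorHom_id, id_whiskerRight] at h
    exact h
  rw [h2, ← reassoc_of% (sw2_tensor X K K Y), sw2_sw2_assoc]

theorem lext_pr {A B X Y : C} (x : A ⟶ K ⊗ X) (y : B ⟶ K ⊗ Y) :
    lext (pr x y) = lext (rst x B) ≫ lext (ins X y) := by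
  rw [pr_eq, lext_lext]

@[reassoc]
theorem pr_comp {A B X Y X' Y' : C} (x : A ⟶ K ⊗ X) (y : B ⟶ K ⊗ Y) (f : X ⟶ X') (g : Y ⟶ Y') :
    pr (x ≫ K ◁ f) (y ≫ K ◁ g) = pr x y ≫ K ◁ (f ⊗ₘ g) := by
  unfold pr
  rw [← tensorHom_comp_tensorHom, Category.assoc, Category.assoc, FM.ten_naturality]

theorem pr_comp_left {A B X Y X' : C} (x : A ⟶ K ⊗ X) (y : B ⟶ K ⊗ Y) (f : X ⟶ X') :
    pr (x ≫ K ◁ f) y = pr x y ≫ K ◁ (f ▷ Y) := by
  have h := pr_comp x y f (𝟙 Y)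
  rw [MonoidalCategory.whiskerLeft_id, Category.comp_id, tensorHom_id] at h
  exact h

theorem pr_comp_right {A B X Y Y' : C} (x : A ⟶ K ⊗ X) (y : B ⟶ K ⊗ Y) (g : Y ⟶ Y') :
    pr x (y ≫ K ◁ g) = pr x y ≫ K ◁ (X ◁ g) := by
  have h := pr_comp x y (𝟙 X) g
  rw [MonoidalCategory.whiskerLeft_id, Category.comp_id, id_tensorHom] at h
  exact h

@[reassoc]
theorem pr_pre {A A' B B' X Y : C} (a : A' ⟶ A) (b : B' ⟶ B) (x : A ⟶ K ⊗ X) (y : B ⟶ K ⊗ Y) :
    pr (a ≫ x) (b ≫ y) = (a ⊗ₘ b) ≫ pr x y := by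
  unfold pr
  rw [← tensorHom_comp_tensorHom, Category.assoc]

@[reassoc]
theorem pr_assoc {A B D X Y Z : C} (x : A ⟶ K ⊗ X) (y : B ⟶ K ⊗ Y) (z : D ⟶ K ⊗ Z) :
    pr (pr x y) z ≫ K ◁ (α_ X Y Z).hom = (α_ A B D).hom ≫ pr x (pr y z) := by
  have h := FM.ten_assoc (R := K) X Y Z
  have e1 : pr (pr x y) z = ((x ⊗ₘ y) ⊗ₘ z) ≫ FM.ten K X Y ▷ (K ⊗ Z) ≫ FM.ten K (X ⊗ Y) Z := by
    unfold pr
    rw [← tensorHom_id, tensorHom_comp_tensorHom_assoc, Category.comp_id]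
  have e2 : pr x (pr y z) = (x ⊗ₘ (y ⊗ₘ z)) ≫ (K ⊗ X) ◁ FM.ten K Y Z ≫ FM.ten K X (Y ⊗ Z) := by
    unfold pr
    rw [← id_tensorHom, tensorHom_comp_tensorHom_assoc, Category.comp_id]
  rw [e1, e2, Category.assoc, Category.assoc, h, associator_naturality_assoc]

end Lax

section add

variable {C : Type u} [Category.{v} C] [MonoidalCategory C] [Preadditive C]
  [MonoidalPreadditive C] {K : C} [MonObj K]

theorem lext_add {A X : C} (x y : A ⟶ K ⊗ X) : lext (x + y) = lext x + lext y := by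
  unfold lext FM.bind
  rw [MonoidalPreadditive.whiskerLeft_add, Preadditive.add_comp]

theorem lext_zero {A X : C} : lext (0 : A ⟶ K ⊗ X) = 0 := by
  unfold lext FM.bind
  rw [MonoidalPreadditive.whiskerLeft_zero, Limits.zero_comp]

theorem lext_neg {A X : C} (x : A ⟶ K ⊗ X) : lext (-x) = - lext x := by
  rw [eq_neg_iff_add_eq_zero, ← lext_add, neg_add_cancel, lext_zero]

theorem lext_sub {A X : C} (x y : A ⟶ K ⊗ X) : lext (x - y) = lext x - lext y := by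
  rw [sub_eq_add_neg, lext_add, lext_neg, ← sub_eq_add_neg]

theorem lext_sum {A X : C} {ι : Type*} (s : Finset ι) (x : ι → (A ⟶ K ⊗ X)) :
    lext (∑ i ∈ s, x i) = ∑ i ∈ s, lext (x i) := by
  classical
  induction s using Finset.induction_on with
  | empty => rw [Finset.sum_empty, Finset.sum_empty, lext_zero]
  | insert a s ha ih => rw [Finset.sum_insert ha, Finset.sum_insert ha, lext_add, ih]

variable [SymmetricCategory C]

theorem pr_add_left {A B X Y : C} (x x' : A ⟶ K ⊗ X) (y : B ⟶ K ⊗ Y) :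
    pr (x + x') y = pr x y + pr x' y := by
  unfold pr
  rw [MonoidalPreadditive.add_tensor, Preadditive.add_comp]

theorem pr_add_right {A B X Y : C} (x : A ⟶ K ⊗ X) (y y' : B ⟶ K ⊗ Y) :
    pr x (y + y') = pr x y + pr x y' := by
  unfold pr
  rw [MonoidalPreadditive.tensor_add, Preadditive.add_comp]

theorem pr_zero_left {A B X Y : C} (y : B ⟶ K ⊗ Y) : pr (0 : A ⟶ K ⊗ X) y = 0 := by
  have h := pr_add_left (0 : A ⟶ K ⊗ X) 0 y
  rw [add_zero] at h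
  exact left_eq_add.mp h

theorem pr_zero_right {A B X Y : C} (x : A ⟶ K ⊗ X) : pr x (0 : B ⟶ K ⊗ Y) = 0 := by
  have h := pr_add_right x (0 : B ⟶ K ⊗ Y) 0
  rw [add_zero] at h
  exact left_eq_add.mp h

theorem pr_sub_left {A B X Y : C} (x x' : A ⟶ K ⊗ X) (y : B ⟶ K ⊗ Y) :
    pr (x - x') y = pr x y - pr x' y := by
  rw [eq_sub_iff_add_eq, ← pr_add_left, sub_add_cancel]

theorem pr_sub_right {A B X Y : C} (x : A ⟶ K ⊗ X) (y y' : B ⟶ K ⊗ Y) :
    pr x (y - y') = pr x y - pr x y' := by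
  rw [eq_sub_iff_add_eq, ← pr_add_right, sub_add_cancel]

theorem pr_neg_right {A B X Y : C} (x : A ⟶ K ⊗ X) (y : B ⟶ K ⊗ Y) :
    pr x (-y) = - pr x y := by
  rw [eq_neg_iff_add_eq_zero, ← pr_add_right, neg_add_cancel, pr_zero_right]

end add

end Vale.Agent.P241.YK
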